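import Vale.Agent.P272.K.P1.Point

/-!
# The pointwise inequality, second part: the Ricci term and the final inequality
-/

open scoped ContDiff Topology ComplexConjugate ComplexOrder
open TopologicalSpace (Opens)
open Matrix

noncomputable section

namespace Vale.Agent.P272.K.P1

variable {n : ℕ}

/-- the tensor density `det g (tr(g⁻¹h) g⁻¹ + g⁻¹hg⁻¹)` -/
def Mf (g h : Cm n → Matrix (Fin n) (Fin n) ℂ) (i j : Fin n) (z : Cm n) : ℂ :=
  (g z).det * (((g z)⁻¹ * h z).trace * (g z)⁻¹ j i + ((g z)⁻¹ * h z * (g z)⁻¹) j i)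

variable {O : Opens (Cm n)} {g h : Cm n → Matrix (Fin n) (Fin n) ℂ}

section smooth

variable (hg : Met O g) (hh : Met O h)

include hg in
lemma smooth_det (z : Cm n) (hz : z ∈ O) : ContDiffAt ℝ ∞ (fun y => (g y).det) z :=
  contDiffAt_det (hg.smooth z hz)

include hg hh in
lemma smooth_tr (z : Cm n) (hz : z ∈ O) :
    ContDiffAt ℝ ∞ (fun y => ((g y)⁻¹ * h y).trace) z := by
  simp only [Matrix.trace, Matrix.diag_apply, Matrix.mul_apply]
  exact ContDiffAt.sum fun i _ => ContDiffAt.sum fun j _ =>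
    (hg.smooth_inv i j z hz).mul (hh.smooth z hz j i)

include hg hh in
lemma smooth_Mf (i j : Fin n) (z : Cm n) (hz : z ∈ O) : ContDiffAt ℝ ∞ (Mf g h i j) z := by
  have h1 : ContDiffAt ℝ ∞ (fun y => ((g y)⁻¹ * h y * (g y)⁻¹) j i) z := by
    simp only [Matrix.mul_apply]
    exact ContDiffAt.sum fun a _ => (ContDiffAt.sum fun b _ =>
      (hg.smooth_inv j b z hz).mul (hh.smooth z hz b a)).mul (hg.smooth_inv a i z hz)
  exact (smooth_det hg z hz).mul (((smooth_tr hg hh z hz).mul (hg.smooth_inv j i z hz)).add h1)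

end smooth

variable (hg : Met O g) (hh : Met O h)
  (hc : ∀ z ∈ O, ∀ i j l, dz l (fun y => g y i j) z = dz i (fun y => g y l j) z)

lemma mk_Mf (i j : Fin n) : Sm.mk (Mf g h i j) (smooth_Mf hg hh i j) =
    (hg.kmet hc).G.det * (((hg.kmet hc).Gi * hh.M).trace * (hg.kmet hc).Gi j i
      + ((hg.kmet hc).Gi * hh.M * (hg.kmet hc).Gi) j i) := by
  refine Sm.ev_ext fun x => ?_
  have e0 : Sm.evM x (hg.kmet hc).G = g x := hg.evM_M x
  have e1 : Sm.evM x (hg.kmet hc).Gi = (g x)⁻¹ := hg.evM_Mi x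
  have e2 : Sm.ev x ((hg.kmet hc).Gi j i) = (g x)⁻¹ j i := by rw [← Sm.evM_apply, e1]
  have e3 : Sm.ev x (((hg.kmet hc).Gi * hh.M * (hg.kmet hc).Gi) j i) =
      ((g x)⁻¹ * h x * (g x)⁻¹) j i := by
    rw [← Sm.evM_apply, Sm.evM_mul, Sm.evM_mul, e1, hh.evM_M]
  rw [Sm.ev_mk, map_mul, map_add, map_mul, e3, e2, Sm.ev_trace, Sm.ev_det, e0, Sm.evM_mul, e1,
    hh.evM_M]
  rfl

lemma evM_R (x : O) (i j : Fin n) : Sm.evM x ((hg.kmet hc).R i j) =
    -C2.D2 i j g x + C2.DM i g x * (g x)⁻¹ * C2.DMb j g x := by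
  have e1 : Sm.evM x (hg.kmet hc).Gi = (g x)⁻¹ := hg.evM_Mi x
  have e2 : Sm.evM x ((Sm.W O).D i (hg.kmet hc).G) = C2.DM i g x := hg.evM_D x i
  have e3 : Sm.evM x ((Sm.W O).Db j (hg.kmet hc).G) = C2.DMb j g x := hg.evM_Db x j
  have e4 : Sm.evM x ((Sm.W O).D i ((Sm.W O).Db j (hg.kmet hc).G)) = C2.D2 i j g x :=
    hg.evM_D_Db x i j
  rw [KMet.R, Sm.evM_add, Sm.evM_neg, Sm.evM_mul, Sm.evM_mul, e1, e2, e3, e4]

lemma evM_Ric (x : O) : Sm.evM x (hg.kmet hc).Ric =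
    -cHess (fun y => Real.log (g y).det.re) x := by
  have e1 : Sm.evM x (hg.kmet hc).Gi = (g x)⁻¹ := hg.evM_Mi x
  have hpos : ∀ᶠ y in 𝓝 (x : Cm n), (g y).PosDef := by
    filter_upwards [O.isOpen.mem_nhds x.2] with y hy using hg.pos y hy
  have hC : C2.MC 2 g x := fun i j => (hg.smooth x x.2 i j).of_le (WithTop.coe_le_coe.2 le_top)
  ext i j
  rw [Sm.evM_apply, KMet.Ric_apply, Sm.ev_trace, Sm.evM_mul, evM_R, e1, Matrix.neg_apply,
    C2.cHess_log_det hC hpos i j, Matrix.trace_mul_comm, Matrix.mul_add, Matrix.trace_add,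
    Matrix.mul_neg, Matrix.trace_neg]
  simp only [← Matrix.mul_assoc]
  ring

/-- the value of the main identity at a point -/
lemma sum_dz_Mf (x : O) :
    ∑ i, ∑ j, dz i (dzb j (Mf g h i j)) x =
      (g x).det * (∑ i, ∑ j, (g x)⁻¹ j i *
            ((g x)⁻¹ * Sm.evM x ((hg.kmet hc).E hh.M i j)).trace
        + ∑ i, ∑ j, ((g x)⁻¹ * Sm.evM x ((hg.kmet hc).E hh.M i j) * (g x)⁻¹) j i
        + 2 * ((g x)⁻¹ * h x * (g x)⁻¹ *
            (-cHess (fun y => Real.log (g y).det.re) x)).trace) := by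
  have key := congrArg (Sm.ev x) ((hg.kmet hc).main_identity hh.M)
  have e0 : Sm.evM x (hg.kmet hc).G = g x := hg.evM_M x
  have e1 : Sm.evM x (hg.kmet hc).Gi = (g x)⁻¹ := hg.evM_Mi x
  have e2 : ∀ i j, Sm.ev x ((hg.kmet hc).Gi j i) = (g x)⁻¹ j i := fun i j => by
    rw [← Sm.evM_apply, e1]
  have e3 : ∀ i j, Sm.ev x (((hg.kmet hc).Gi * (hg.kmet hc).E hh.M i j * (hg.kmet hc).Gi) j i) =
      ((g x)⁻¹ * Sm.evM x ((hg.kmet hc).E hh.M i j) * (g x)⁻¹) j i := fun i j => by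
    rw [← Sm.evM_apply, Sm.evM_mul, Sm.evM_mul, e1]
  have e5 : Sm.ev x (2 : Sm O) = 2 := map_ofNat (Sm.ev x) 2
  simp only [← mk_Mf hg hh hc, Sm.W_d, Sm.W_db, map_sum, map_mul, map_add, Sm.ev_d_db_mk,
    e2, e3, Sm.ev_trace, Sm.ev_det, e0, Sm.evM_mul, e1, hh.evM_M, evM_Ric, e5] at key
  exact key

/-- **The pointwise inequality.** -/
theorem point_ineq (hg : Met O g) (hh : Met O h)
    (hc : ∀ z ∈ O, ∀ i j l, dz l (fun y => g y i j) z = dz i (fun y => g y l j) z)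
    (x : O) {k : ℝ} (hk0 : 0 ≤ k)
    (hk : ∀ ξ : Cm n, (K.quart (curv h x) ξ).re ≤ -k * (quad (h x) ξ).re ^ 2)
    (hRic : (-cHess (fun y => Real.log (g y).det.re) (x : Cm n) + g x).PosSemidef) :
    (k * ((g x)⁻¹ * h x).trace.re ^ 2 - 2 * ((g x)⁻¹ * h x).trace.re) * (g x).det.re ≤
      (∑ i, ∑ j, dz i (dzb j (Mf g h i j)) x).re := by
  have hgx : (g x).PosDef := hg.pos x x.2
  have hhx : (h x).PosDef := hh.pos x x.2
  obtain ⟨B, hB⟩ := C2.exists_factor hgx.inv.posSemidef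
  have h1 := avg_ineq (fun i j => Sm.evM x ((hg.kmet hc).E hh.M i j)) hB (H := h x) hk0
    (quart_E_ge hg hh hc x hk)
  -- the Ricci term
  have hP : ((g x)⁻¹ * h x * (g x)⁻¹).PosSemidef := by
    have := hhx.posSemidef.mul_mul_conjTranspose_same (g x)⁻¹
    rwa [hgx.inv.isHermitian.eq] at this
  have h2 := C2.trace_mul_nonneg hP hRic
  rw [Matrix.mul_add, Matrix.trace_add] at h2
  have h3 : ((g x)⁻¹ * h x * (g x)⁻¹ * g x).trace = ((g x)⁻¹ * h x).trace := by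
    rw [Matrix.mul_assoc, Matrix.nonsing_inv_mul _ hgx.det_pos.ne'.isUnit, Matrix.mul_one]
  rw [h3, Complex.le_def] at h2
  have h4 := h2.1
  rw [Complex.add_re, Complex.zero_re] at h4
  rw [sum_dz_Mf hg hh hc x]
  have hdet : (g x).det = (((g x).det.re : ℝ) : ℂ) := (C2.det_re_eq hgx).symm
  have hdp : 0 < (g x).det.re := C2.det_re_pos hgx
  rw [hdet, Complex.re_ofReal_mul, Complex.ofReal_re, mul_comm]
  refine mul_le_mul_of_nonneg_left ?_ hdp.le
  have e5 : (2 * ((g x)⁻¹ * h x * (g x)⁻¹ *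
      -cHess (fun y => Real.log (g y).det.re) (x : Cm n)).trace).re =
      2 * ((g x)⁻¹ * h x * (g x)⁻¹ *
      -cHess (fun y => Real.log (g y).det.re) (x : Cm n)).trace.re := by
    rw [show (2 : ℂ) = ((2 : ℝ) : ℂ) by norm_num, Complex.re_ofReal_mul]
  rw [Complex.add_re, e5]
  linarith [h1, h4]

end Vale.Agent.P272.K.P1
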