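import Vale.Agent.P272.K.P1.Ineq
import Vale.Agent.P272.K.Asm.Weak

/-!
# The weak form of the inequality in one chart
-/

open scoped ContDiff Topology ComplexConjugate ComplexOrder
open TopologicalSpace (Opens)
open Matrix MeasureTheory

noncomputable section

namespace Vale.Agent.P272.K.P1

variable {n : ℕ}

section ibp

variable {U : Set (Cm n)} {ψ F : Cm n → ℂ}

lemma tsupport_dz (i : Fin n) : tsupport (dz i ψ) ⊆ tsupport ψ := by
  refine closure_minimal (fun z hz => ?_) (isClosed_tsupport ψ)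
  by_contra h
  apply hz
  have h1 : ψ =ᶠ[𝓝 z] fun _ => 0 := notMem_tsupport_iff_eventuallyEq.mp h
  rw [INT.dz_congr h1, INT.dz_const]

lemma tsupport_dzb (i : Fin n) : tsupport (dzb i ψ) ⊆ tsupport ψ := by
  refine closure_minimal (fun z hz => ?_) (isClosed_tsupport ψ)
  by_contra h
  apply hz
  have h1 : ψ =ᶠ[𝓝 z] fun _ => 0 := notMem_tsupport_iff_eventuallyEq.mp h
  rw [INT.dzb_congr h1, INT.dzb_const]

lemma contDiff_dz (hψ : ContDiff ℝ ∞ ψ) (i : Fin n) : ContDiff ℝ ∞ (dz i ψ) :=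
  contDiff_iff_contDiffAt.2 fun _ => INT.smooth_dz hψ.contDiffAt

lemma contDiff_dzb (hψ : ContDiff ℝ ∞ ψ) (i : Fin n) : ContDiff ℝ ∞ (dzb i ψ) :=
  contDiff_iff_contDiffAt.2 fun _ => INT.smooth_dzb hψ.contDiffAt

lemma contDiff_mul_cut (hψ : ContDiff ℝ ∞ ψ) (hU : tsupport ψ ⊆ U)
    (hF : ∀ z ∈ U, ContDiffAt ℝ ∞ F z) : ContDiff ℝ ∞ (fun z => ψ z * F z) := by
  rw [contDiff_iff_contDiffAt]
  intro z
  by_cases h : z ∈ tsupport ψ
  · exact hψ.contDiffAt.mul (hF z (hU h))
  · have : (fun z => ψ z * F z) =ᶠ[𝓝 z] fun _ => 0 := by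
      filter_upwards [notMem_tsupport_iff_eventuallyEq.mp h] with y hy
      simp only [hy, Pi.zero_apply, zero_mul]
    exact contDiffAt_const.congr_of_eventuallyEq this

lemma integrable_mul_cut (hψ : ContDiff ℝ ∞ ψ) (hc : HasCompactSupport ψ) (hU : tsupport ψ ⊆ U)
    (hF : ∀ z ∈ U, ContDiffAt ℝ ∞ F z) : Integrable (fun z => ψ z * F z) :=
  (contDiff_mul_cut hψ hU hF).continuous.integrable_of_hasCompactSupport hc.mul_right

lemma ibp_dz (hψ : ContDiff ℝ ∞ ψ) (hc : HasCompactSupport ψ) (hU : tsupport ψ ⊆ U)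
    (hF : ∀ z ∈ U, ContDiffAt ℝ ∞ F z) (i : Fin n) :
    ∫ z, ψ z * dz i F z = - ∫ z, dz i ψ z * F z := by
  have h0 := INT.integral_dz_eq_zero ((contDiff_mul_cut hψ hU hF).of_le
    (WithTop.coe_le_coe.2 le_top)) hc.mul_right i
  have h1 : ∀ z, dz i (fun z => ψ z * F z) z = dz i ψ z * F z + ψ z * dz i F z := by
    intro z
    by_cases h : z ∈ tsupport ψ
    · exact INT.dz_mul (hψ.contDiffAt.differentiableAt (by simp))
        ((hF z (hU h)).differentiableAt (by simp))
    · have h2 : ψ =ᶠ[𝓝 z] fun _ => 0 := notMem_tsupport_iff_eventuallyEq.mp h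
      have h3 : (fun z => ψ z * F z) =ᶠ[𝓝 z] fun _ => 0 := by
        filter_upwards [h2] with y hy
        simp only [hy, zero_mul]
      rw [INT.dz_congr h3, INT.dz_congr h2, INT.dz_const, h2.self_of_nhds]
      simp
  simp only [h1] at h0
  rw [integral_add (integrable_mul_cut (contDiff_dz hψ i) (hc.mono' (subset_closure.trans
    (tsupport_dz i))) ((tsupport_dz i).trans hU) hF)
    (integrable_mul_cut hψ hc hU fun z hz => INT.smooth_dz (hF z hz))] at h0
  linear_combination h0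

lemma ibp_dzb (hψ : ContDiff ℝ ∞ ψ) (hc : HasCompactSupport ψ) (hU : tsupport ψ ⊆ U)
    (hF : ∀ z ∈ U, ContDiffAt ℝ ∞ F z) (i : Fin n) :
    ∫ z, ψ z * dzb i F z = - ∫ z, dzb i ψ z * F z := by
  have h0 := INT.integral_dzb_eq_zero ((contDiff_mul_cut hψ hU hF).of_le
    (WithTop.coe_le_coe.2 le_top)) hc.mul_right i
  have h1 : ∀ z, dzb i (fun z => ψ z * F z) z = dzb i ψ z * F z + ψ z * dzb i F z := by
    intro z
    by_cases h : z ∈ tsupport ψ
    · exact INT.dzb_mul (hψ.contDiffAt.differentiableAt (by simp))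
        ((hF z (hU h)).differentiableAt (by simp))
    · have h2 : ψ =ᶠ[𝓝 z] fun _ => 0 := notMem_tsupport_iff_eventuallyEq.mp h
      have h3 : (fun z => ψ z * F z) =ᶠ[𝓝 z] fun _ => 0 := by
        filter_upwards [h2] with y hy
        simp only [hy, zero_mul]
      rw [INT.dzb_congr h3, INT.dzb_congr h2, INT.dzb_const, h2.self_of_nhds]
      simp
  simp only [h1] at h0
  rw [integral_add (integrable_mul_cut (contDiff_dzb hψ i) (hc.mono' (subset_closure.trans
    (tsupport_dzb i))) ((tsupport_dzb i).trans hU) hF)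
    (integrable_mul_cut hψ hc hU fun z hz => INT.smooth_dzb (hF z hz))] at h0
  linear_combination h0

lemma ibp2 (hψ : ContDiff ℝ ∞ ψ) (hc : HasCompactSupport ψ) (hU : tsupport ψ ⊆ U)
    (hF : ∀ z ∈ U, ContDiffAt ℝ ∞ F z) (i j : Fin n) :
    ∫ z, ψ z * dz i (dzb j F) z = ∫ z, dz i (dzb j ψ) z * F z := by
  rw [ibp_dz hψ hc hU (fun z hz => INT.smooth_dzb (hF z hz)) i,
    ibp_dzb (contDiff_dz hψ i) (hc.mono' (subset_closure.trans (tsupport_dz i)))
      ((tsupport_dz i).trans hU) hF j, neg_neg]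
  refine integral_congr_ae (Filter.Eventually.of_forall fun z => ?_)
  show dzb j (dz i ψ) z * F z = dz i (dzb j ψ) z * F z
  rw [INT.dz_dzb_comm (hψ.contDiffAt.of_le (WithTop.coe_le_coe.2 le_top))]

end ibp

/-- **The one chart weak form.** -/
theorem weakForm (n : ℕ) : WeakForm n := by
  intro U g h ψ k hUo hgs hhs hgp hhp hgc hRic hψ hψc hψU hψ0 hk0 hk
  set O : Opens (Cm n) := ⟨U, hUo⟩ with hO
  have hg : Met O g := ⟨hgs, hgp⟩
  have hh : Met O h := ⟨hhs, hhp⟩
  set Ψ : Cm n → ℂ := fun z => (ψ z : ℂ) with hΨ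
  have hΨs : ContDiff ℝ ∞ Ψ := Complex.ofRealCLM.contDiff.comp hψ
  have hΨc : HasCompactSupport Ψ := hψc.comp_left (g := fun r : ℝ => (r : ℂ)) Complex.ofReal_zero
  have hΨt : tsupport Ψ ⊆ tsupport ψ := by
    refine closure_mono fun z hz => ?_
    intro h0
    apply hz
    simp only [hΨ, h0, Complex.ofReal_zero]
  have hΨU : tsupport Ψ ⊆ U := hΨt.trans hψU
  have hMf : ∀ i j, ∀ z ∈ U, ContDiffAt ℝ ∞ (Mf g h i j) z := fun i j z hz =>
    smooth_Mf hg hh i j z hz
  have hMf2 : ∀ i j, ∀ z ∈ U, ContDiffAt ℝ ∞ (dz i (dzb j (Mf g h i j))) z := fun i j z hz =>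
    INT.smooth_dz (INT.smooth_dzb (hMf i j z hz))
  -- integrable functions
  have int1 : ∀ i j, Integrable fun z => Ψ z * dz i (dzb j (Mf g h i j)) z := fun i j =>
    integrable_mul_cut hΨs hΨc hΨU (hMf2 i j)
  have int2 : ∀ i j, Integrable fun z => dz i (dzb j Ψ) z * Mf g h i j z := fun i j => by
    have t1 : tsupport (dz i (dzb j Ψ)) ⊆ tsupport Ψ := (tsupport_dz i).trans (tsupport_dzb j)
    exact integrable_mul_cut (contDiff_dz (contDiff_dzb hΨs j) i)
      (hΨc.mono' (subset_closure.trans t1)) (t1.trans hΨU) (hMf i j)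
  -- the left hand side
  set L : Cm n → ℝ := fun z => (k * ((g z)⁻¹ * h z).trace.re ^ 2
    - 2 * ((g z)⁻¹ * h z).trace.re) * (g z).det.re with hL
  have intL : Integrable fun z => ψ z * L z := by
    have hLs : ∀ z ∈ U, ContDiffAt ℝ ∞ (fun z => (L z : ℂ)) z := by
      intro z hz
      have h1 := contDiffAt_re (smooth_tr hg hh z hz)
      have h2 := contDiffAt_re (smooth_det hg z hz)
      exact Complex.ofRealCLM.contDiff.contDiffAt.comp z
        (((contDiffAt_const.mul (h1.pow 2)).sub (contDiffAt_const.mul h1)).mul h2)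
    have := (integrable_mul_cut hΨs hΨc hΨU hLs).re
    refine this.congr (Filter.Eventually.of_forall fun z => ?_)
    show ((ψ z : ℂ) * (L z : ℂ)).re = ψ z * L z
    rw [← Complex.ofReal_mul, Complex.ofReal_re]
  have e1 : ∫ z in U, ψ z * L z = ∫ z, ψ z * L z := by
    refine setIntegral_eq_integral_of_forall_compl_eq_zero fun z hz => ?_
    have : ψ z = 0 := image_eq_zero_of_notMem_tsupport fun h' => hz (hψU h')
    rw [this, zero_mul]
  -- the first inequality
  have s1 : ∫ z, ψ z * L z ≤ ∫ z, (∑ i, ∑ j, Ψ z * dz i (dzb j (Mf g h i j)) z).re := by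
    refine integral_mono intL ?_ fun z => ?_
    · exact (integrable_finsetSum _ fun i _ => integrable_finsetSum _ fun j _ => int1 i j).re
    · show ψ z * L z ≤ (∑ i, ∑ j, Ψ z * dz i (dzb j (Mf g h i j)) z).re
      have e : (∑ i, ∑ j, Ψ z * dz i (dzb j (Mf g h i j)) z).re =
          ψ z * (∑ i, ∑ j, dz i (dzb j (Mf g h i j)) z).re := by
        simp only [← Finset.mul_sum]
        exact Complex.re_ofReal_mul _ _
      rw [e]
      by_cases hz : z ∈ tsupport ψ
      · exact mul_le_mul_of_nonneg_left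
          (point_ineq hg hh hgc ⟨z, hψU hz⟩ hk0 (hk z hz) (hRic z (hψU hz))) (hψ0 z)
      · rw [image_eq_zero_of_notMem_tsupport hz, zero_mul, zero_mul]
  -- integration by parts
  have s2 : ∫ z, (∑ i, ∑ j, Ψ z * dz i (dzb j (Mf g h i j)) z).re =
      ∫ z, (∑ i, ∑ j, dz i (dzb j Ψ) z * Mf g h i j z).re := by
    have r1 : ∫ z, (∑ i, ∑ j, Ψ z * dz i (dzb j (Mf g h i j)) z).re =
        (∫ z, ∑ i, ∑ j, Ψ z * dz i (dzb j (Mf g h i j)) z).re :=
      integral_re (integrable_finsetSum _ fun i _ => integrable_finsetSum _ fun j _ => int1 i j)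
    have r2 : ∫ z, (∑ i, ∑ j, dz i (dzb j Ψ) z * Mf g h i j z).re =
        (∫ z, ∑ i, ∑ j, dz i (dzb j Ψ) z * Mf g h i j z).re :=
      integral_re (integrable_finsetSum _ fun i _ => integrable_finsetSum _ fun j _ => int2 i j)
    rw [r1, r2]
    congr 1
    rw [integral_finsetSum _ fun i _ => integrable_finsetSum _ fun j _ => int1 i j,
      integral_finsetSum _ fun i _ => integrable_finsetSum _ fun j _ => int2 i j]
    refine Finset.sum_congr rfl fun i _ => ?_
    rw [integral_finsetSum _ fun j _ => int1 i j, integral_finsetSum _ fun j _ => int2 i j]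
    exact Finset.sum_congr rfl fun j _ => ibp2 hΨs hΨc hΨU (hMf i j) i j
  -- the right hand side
  have e2 : ∫ z in U, (((g z)⁻¹ * h z).trace.re * ((g z)⁻¹ * cHess ψ z).trace.re +
      ((g z)⁻¹ * h z * ((g z)⁻¹ * cHess ψ z)).trace.re) * (g z).det.re =
      ∫ z, (∑ i, ∑ j, dz i (dzb j Ψ) z * Mf g h i j z).re := by
    have e3 : ∫ z in U, (∑ i, ∑ j, dz i (dzb j Ψ) z * Mf g h i j z).re =
        ∫ z, (∑ i, ∑ j, dz i (dzb j Ψ) z * Mf g h i j z).re := by
      refine setIntegral_eq_integral_of_forall_compl_eq_zero fun z hz => ?_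
      have h1 : z ∉ tsupport Ψ := fun h' => hz (hΨU h')
      have h2 : ∀ i j, dz i (dzb j Ψ) z = 0 := fun i j =>
        image_eq_zero_of_notMem_tsupport fun h' => h1 (((tsupport_dz i).trans (tsupport_dzb j)) h')
      simp [h2]
    rw [← e3]
    · refine setIntegral_congr_fun hUo.measurableSet fun z hz => ?_
      show _ = (∑ i, ∑ j, dz i (dzb j Ψ) z * Mf g h i j z).re
      have hgx : (g z).PosDef := hgp z hz
      have hhx : (h z).PosDef := hhp z hz
      have t1 : (((g z)⁻¹ * h z).trace) = ((((g z)⁻¹ * h z).trace.re : ℝ) : ℂ) := by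
        have := C2.trace_mul_nonneg hgx.inv.posSemidef hhx.posSemidef
        rw [Complex.le_def] at this
        apply Complex.ext
        · simp
        · simpa using this.2.symm
      have t2 : ∑ i, ∑ j, dz i (dzb j Ψ) z * Mf g h i j z = ((g z).det.re : ℂ) *
          (((((g z)⁻¹ * h z).trace.re : ℝ) : ℂ) * ((g z)⁻¹ * cHess ψ z).trace +
            ((g z)⁻¹ * h z * ((g z)⁻¹ * cHess ψ z)).trace) := by
        rw [← t1, C2.det_re_eq hgx]
        have u1 : ((g z)⁻¹ * cHess ψ z).trace = ∑ i, ∑ j, dz i (dzb j Ψ) z * (g z)⁻¹ j i := by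
          rw [Matrix.trace_mul_comm]
          simp only [Matrix.trace, Matrix.diag_apply, Matrix.mul_apply]
          rfl
        have u2 : ((g z)⁻¹ * h z * ((g z)⁻¹ * cHess ψ z)).trace =
            ∑ i, ∑ j, dz i (dzb j Ψ) z * ((g z)⁻¹ * h z * (g z)⁻¹) j i := by
          rw [← Matrix.mul_assoc, Matrix.trace_mul_comm]
          simp only [Matrix.trace, Matrix.diag_apply]
          refine Finset.sum_congr rfl fun i _ => ?_
          rw [Matrix.mul_apply]
          rfl
        rw [u1, u2, Finset.mul_sum, ← Finset.sum_add_distrib, Finset.mul_sum]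
        refine Finset.sum_congr rfl fun i _ => ?_
        rw [Finset.mul_sum, ← Finset.sum_add_distrib, Finset.mul_sum]
        refine Finset.sum_congr rfl fun j _ => ?_
        rw [Mf]
        ring
      rw [t2, Complex.re_ofReal_mul, Complex.add_re, Complex.re_ofReal_mul]
      ring
  calc ∫ z in U, ψ z * L z = ∫ z, ψ z * L z := e1
    _ ≤ _ := s1
    _ = _ := s2
    _ = _ := e2.symm

end Vale.Agent.P272.K.P1
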