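import Mathlib.Data.Matrix.Basic
import Mathlib.LinearAlgebra.Matrix.Trace
import Mathlib.LinearAlgebra.Matrix.ConjTranspose
import Mathlib.LinearAlgebra.Matrix.Adjugate
import Mathlib.Tactic

/-!
# Commutative star rings with commuting Wirtinger derivations

`d i` and `db i` are additive, satisfy the Leibniz rule, commute with each other, and
`star (d i a) = db i (star a)`. For a matrix `M` with entries in such a ring the matrix
of derivatives is `W.D i M = M.map (W.d i)`, `W.Db i M = M.map (W.db i)`.
-/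

namespace Vale.Agent.P272.K.P1

set_option linter.unusedSectionVars false

open Matrix

/-- commuting Wirtinger derivations on a commutative star ring -/
structure WAlg (n : ℕ) (A : Type*) [CommRing A] [StarRing A] where
  d : Fin n → A → A
  db : Fin n → A → A
  d_add : ∀ i a b, d i (a + b) = d i a + d i b
  d_mul : ∀ i a b, d i (a * b) = d i a * b + a * d i b
  d_star : ∀ i a, d i (star a) = star (db i a)
  d_d : ∀ i j a, d i (d j a) = d j (d i a)
  d_db : ∀ i j a, d i (db j a) = db j (d i a)

namespace WAlg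

variable {n : ℕ} {A : Type*} [CommRing A] [StarRing A] (W : WAlg n A)

lemma db_eq (i : Fin n) (a : A) : W.db i a = star (W.d i (star a)) := by
  rw [W.d_star, star_star]

lemma db_star (i : Fin n) (a : A) : W.db i (star a) = star (W.d i a) := by
  rw [W.db_eq, star_star]

lemma db_add (i : Fin n) (a b : A) : W.db i (a + b) = W.db i a + W.db i b := by
  rw [W.db_eq, star_add, W.d_add, star_add, ← W.db_eq, ← W.db_eq]

lemma db_mul (i : Fin n) (a b : A) : W.db i (a * b) = W.db i a * b + a * W.db i b := by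
  rw [W.db_eq, star_mul', W.d_mul, star_add, star_mul', star_mul', ← W.db_eq, ← W.db_eq,
    star_star, star_star]

lemma db_db (i j : Fin n) (a : A) : W.db i (W.db j a) = W.db j (W.db i a) := by
  rw [W.db_eq j a, W.db_star, W.d_d, ← W.db_star, ← W.db_eq]

@[simp] lemma d_zero (i : Fin n) : W.d i 0 = 0 := by
  have h := W.d_add i 0 0
  simpa using h

@[simp] lemma db_zero (i : Fin n) : W.db i 0 = 0 := by rw [W.db_eq]; simp

@[simp] lemma d_one (i : Fin n) : W.d i 1 = 0 := by
  have h := W.d_mul i 1 1
  simpa using h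

@[simp] lemma db_one (i : Fin n) : W.db i 1 = 0 := by rw [W.db_eq]; simp

lemma d_neg (i : Fin n) (a : A) : W.d i (-a) = -W.d i a := by
  have h := W.d_add i (-a) a
  rw [neg_add_cancel, W.d_zero] at h
  exact (neg_eq_of_add_eq_zero_left h.symm).symm

lemma db_neg (i : Fin n) (a : A) : W.db i (-a) = -W.db i a := by
  rw [W.db_eq, star_neg, W.d_neg, star_neg, ← W.db_eq]

lemma d_sub (i : Fin n) (a b : A) : W.d i (a - b) = W.d i a - W.d i b := by
  rw [sub_eq_add_neg, W.d_add, W.d_neg, sub_eq_add_neg]

lemma db_sub (i : Fin n) (a b : A) : W.db i (a - b) = W.db i a - W.db i b := by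
  rw [sub_eq_add_neg, W.db_add, W.db_neg, sub_eq_add_neg]

/-- `d i` as an additive map -/
def dHom (i : Fin n) : A →+ A where
  toFun := W.d i
  map_zero' := W.d_zero i
  map_add' := W.d_add i

/-- `db i` as an additive map -/
def dbHom (i : Fin n) : A →+ A where
  toFun := W.db i
  map_zero' := W.db_zero i
  map_add' := W.db_add i

lemma d_sum {ι : Type*} (i : Fin n) (s : Finset ι) (f : ι → A) :
    W.d i (∑ k ∈ s, f k) = ∑ k ∈ s, W.d i (f k) := map_sum (W.dHom i) f s

lemma db_sum {ι : Type*} (i : Fin n) (s : Finset ι) (f : ι → A) :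
    W.db i (∑ k ∈ s, f k) = ∑ k ∈ s, W.db i (f k) := map_sum (W.dbHom i) f s

/-! ### matrices -/

/-- entrywise `d i` -/
def D {p q : Type*} (i : Fin n) (M : Matrix p q A) : Matrix p q A := M.map (W.d i)

/-- entrywise `db i` -/
def Db {p q : Type*} (i : Fin n) (M : Matrix p q A) : Matrix p q A := M.map (W.db i)

section mat

variable {p q r : Type*} [Fintype q]

@[simp] lemma D_apply (i : Fin n) (M : Matrix p q A) (a : p) (b : q) :
    W.D i M a b = W.d i (M a b) := rfl

@[simp] lemma Db_apply (i : Fin n) (M : Matrix p q A) (a : p) (b : q) :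
    W.Db i M a b = W.db i (M a b) := rfl

lemma D_add (i : Fin n) (M N : Matrix p q A) : W.D i (M + N) = W.D i M + W.D i N := by
  ext a b; simp [W.d_add]

lemma Db_add (i : Fin n) (M N : Matrix p q A) : W.Db i (M + N) = W.Db i M + W.Db i N := by
  ext a b; simp [W.db_add]

lemma D_neg (i : Fin n) (M : Matrix p q A) : W.D i (-M) = -W.D i M := by
  ext a b; simp [W.d_neg]

lemma Db_neg (i : Fin n) (M : Matrix p q A) : W.Db i (-M) = -W.Db i M := by
  ext a b; simp [W.db_neg]

lemma D_sub (i : Fin n) (M N : Matrix p q A) : W.D i (M - N) = W.D i M - W.D i N := by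
  ext a b; simp [W.d_sub]

lemma Db_sub (i : Fin n) (M N : Matrix p q A) : W.Db i (M - N) = W.Db i M - W.Db i N := by
  ext a b; simp [W.db_sub]

lemma D_mul (i : Fin n) (M : Matrix p q A) (N : Matrix q r A) :
    W.D i (M * N) = W.D i M * N + M * W.D i N := by
  ext a b
  simp only [D_apply, Matrix.mul_apply, W.d_sum, W.d_mul, Matrix.add_apply, Finset.sum_add_distrib]

lemma Db_mul (i : Fin n) (M : Matrix p q A) (N : Matrix q r A) :
    W.Db i (M * N) = W.Db i M * N + M * W.Db i N := by
  ext a b
  simp only [Db_apply, Matrix.mul_apply, W.db_sum, W.db_mul, Matrix.add_apply, Finset.sum_add_distrib]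

lemma D_D (i j : Fin n) (M : Matrix p q A) : W.D i (W.D j M) = W.D j (W.D i M) := by
  ext a b; exact W.d_d _ _ _

lemma D_Db (i j : Fin n) (M : Matrix p q A) : W.D i (W.Db j M) = W.Db j (W.D i M) := by
  ext a b; exact W.d_db _ _ _

lemma Db_Db (i j : Fin n) (M : Matrix p q A) : W.Db i (W.Db j M) = W.Db j (W.Db i M) := by
  ext a b; exact W.db_db _ _ _

lemma D_conjTranspose (i : Fin n) (M : Matrix p q A) : W.D i Mᴴ = (W.Db i M)ᴴ := by
  ext a b; simp [conjTranspose_apply, W.d_star]

lemma Db_conjTranspose (i : Fin n) (M : Matrix p q A) : W.Db i Mᴴ = (W.D i M)ᴴ := by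
  ext a b; simp [conjTranspose_apply, W.db_star]

lemma d_trace (i : Fin n) (M : Matrix q q A) : W.d i M.trace = (W.D i M).trace := by
  simp only [Matrix.trace, Matrix.diag, W.d_sum, D_apply]

lemma db_trace (i : Fin n) (M : Matrix q q A) : W.db i M.trace = (W.Db i M).trace := by
  simp only [Matrix.trace, Matrix.diag, W.db_sum, Db_apply]

variable [DecidableEq q]

@[simp] lemma D_one (i : Fin n) : W.D i (1 : Matrix q q A) = 0 := by
  ext a b; simp only [D_apply, one_apply]; split_ifs <;> simp

@[simp] lemma Db_one (i : Fin n) : W.Db i (1 : Matrix q q A) = 0 := by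
  ext a b; simp only [Db_apply, one_apply]; split_ifs <;> simp

/-- derivative of the inverse -/
lemma D_inv {G Gi : Matrix q q A} (h : G * Gi = 1) (h' : Gi * G = 1) (i : Fin n) :
    W.D i Gi = -(Gi * W.D i G * Gi) := by
  have h1 := W.D_mul i G Gi
  rw [h, W.D_one] at h1
  have h2 : Gi * (W.D i G * Gi + G * W.D i Gi) = 0 := by rw [← h1, mul_zero]
  rw [mul_add, ← mul_assoc, ← mul_assoc, h', one_mul] at h2
  exact (neg_eq_of_add_eq_zero_right h2).symm

lemma Db_inv {G Gi : Matrix q q A} (h : G * Gi = 1) (h' : Gi * G = 1) (i : Fin n) :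
    W.Db i Gi = -(Gi * W.Db i G * Gi) := by
  have h1 := W.Db_mul i G Gi
  rw [h, W.Db_one] at h1
  have h2 : Gi * (W.Db i G * Gi + G * W.Db i Gi) = 0 := by rw [← h1, mul_zero]
  rw [mul_add, ← mul_assoc, ← mul_assoc, h', one_mul] at h2
  exact (neg_eq_of_add_eq_zero_right h2).symm

/-- derivation of a finite product -/
lemma d_prod {ι : Type*} [DecidableEq ι] (i : Fin n) (s : Finset ι) (f : ι → A) :
    W.d i (∏ k ∈ s, f k) = ∑ k ∈ s, (∏ l ∈ s.erase k, f l) * W.d i (f k) := by
  induction s using Finset.induction_on with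
  | empty => simp
  | insert a s ha ih =>
    rw [Finset.prod_insert ha, W.d_mul, ih, Finset.sum_insert ha, Finset.erase_insert ha,
      Finset.mul_sum, mul_comm (W.d i (f a))]
    congr 1
    refine Finset.sum_congr rfl fun k hk => ?_
    have hka : a ≠ k := fun h => ha (h ▸ hk)
    rw [Finset.erase_insert_of_ne hka, Finset.prod_insert
      (fun h => ha (Finset.mem_of_mem_erase h)), mul_assoc]

lemma d_intCast (i : Fin n) (m : ℤ) (a : A) : W.d i ((m : A) * a) = m * W.d i a := by
  have := map_zsmul (W.dHom i) m a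
  simpa [zsmul_eq_mul, dHom] using this

/-- Jacobi's formula -/
lemma d_det (i : Fin n) (M : Matrix q q A) : W.d i M.det = (M.adjugate * W.D i M).trace := by
  have h4 : ∀ k, ∑ r, M.adjugate k r * W.d i (M r k) =
      (M.updateCol k (fun r => W.d i (M r k))).det := by
    intro k
    have := congrFun (Matrix.cramer_eq_adjugate_mulVec M (fun r => W.d i (M r k))) k
    rw [Matrix.cramer_apply] at this
    rw [this]
    rfl
  rw [Matrix.det_apply', W.d_sum]
  simp only [Matrix.trace, Matrix.diag, Matrix.mul_apply, D_apply]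
  simp_rw [h4, Matrix.det_apply', W.d_intCast, W.d_prod]
  rw [Finset.sum_comm]
  refine Finset.sum_congr rfl fun σ _ => ?_
  rw [Finset.mul_sum]
  refine Finset.sum_congr rfl fun k _ => ?_
  congr 1
  rw [← Finset.mul_prod_erase Finset.univ _ (Finset.mem_univ k), Matrix.updateCol_self, mul_comm]
  congr 1
  refine Finset.prod_congr rfl fun j hj => ?_
  rw [Matrix.updateCol_ne (Finset.ne_of_mem_erase hj)]

lemma db_det (i : Fin n) (M : Matrix q q A) : W.db i M.det = (M.adjugate * W.Db i M).trace := by
  rw [W.db_eq, ← Matrix.det_conjTranspose, W.d_det, W.D_conjTranspose,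
    ← Matrix.adjugate_conjTranspose, ← Matrix.conjTranspose_mul, Matrix.trace_conjTranspose,
    star_star, Matrix.trace_mul_comm]

lemma adjugate_eq {G Gi : Matrix q q A} (h : G * Gi = 1) :
    G.adjugate = G.det • Gi := by
  have h1 : G.adjugate * G * Gi = G.adjugate := by rw [mul_assoc, h, mul_one]
  rw [← h1, Matrix.adjugate_mul, smul_mul_assoc, one_mul]

lemma d_det' {G Gi : Matrix q q A} (h : G * Gi = 1) (i : Fin n) :
    W.d i G.det = G.det * (Gi * W.D i G).trace := by
  rw [W.d_det, adjugate_eq h, smul_mul_assoc, Matrix.trace_smul, smul_eq_mul]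

lemma db_det' {G Gi : Matrix q q A} (h : G * Gi = 1) (i : Fin n) :
    W.db i G.det = G.det * (Gi * W.Db i G).trace := by
  rw [W.db_det, adjugate_eq h, smul_mul_assoc, Matrix.trace_smul, smul_eq_mul]

end mat

end WAlg

end Vale.Agent.P272.K.P1
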