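import Mathlib.Algebra.Star.Subalgebra
import Vale.Agent.P272.K.INT.Wirt
import Vale.Agent.P272.K.P1.WAlg

/-!
# The algebra of smooth complex functions on an open subset of `ℂⁿ`

`Sm O` is the commutative star algebra of smooth functions `O → ℂ` with its Wirtinger
derivations `Sm.W O : WAlg n (Sm O)`.
-/

open scoped ContDiff Topology ComplexConjugate
open TopologicalSpace (Opens)
open Set Filter Matrix

noncomputable section

namespace Vale.Agent.P272.K.P1

open INT

variable {n : ℕ}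

open Classical in
/-- extension by zero -/
def ext0 (O : Opens (Cm n)) (F : O → ℂ) (x : Cm n) : ℂ := if h : x ∈ O then F ⟨x, h⟩ else 0

theorem ext0_apply (O : Opens (Cm n)) (F : O → ℂ) {x : Cm n} (hx : x ∈ O) :
    ext0 O F x = F ⟨x, hx⟩ := by
  simp [ext0, hx]

theorem ext0_coe (O : Opens (Cm n)) (F : O → ℂ) (x : O) : ext0 O F x = F x := by
  simp [ext0]

/-- smooth functions on `O`, in the real sense, with values in `ℂ` -/
def IsSm (O : Opens (Cm n)) (F : O → ℂ) : Prop := ∀ x ∈ O, ContDiffAt ℝ ∞ (ext0 O F) x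

theorem IsSm.congr {O : Opens (Cm n)} {F : O → ℂ} {f : Cm n → ℂ}
    (hf : ∀ x ∈ O, ContDiffAt ℝ ∞ f x) (h : ∀ x : O, F x = f x) : IsSm O F := by
  intro x hx
  refine (hf x hx).congr_of_eventuallyEq ?_
  filter_upwards [O.isOpen.mem_nhds hx] with y hy
  rw [ext0_apply O F hy, h]

/-- The algebra of smooth functions `O → ℂ`. -/
def Sm (O : Opens (Cm n)) : StarSubalgebra ℂ (O → ℂ) where
  carrier := {F | IsSm O F}
  mul_mem' := by
    intro F G hF hG
    exact IsSm.congr (f := fun x => ext0 O F x * ext0 O G x)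
      (fun x hx => (hF x hx).mul (hG x hx)) fun x => by simp [ext0_coe]
  add_mem' := by
    intro F G hF hG
    exact IsSm.congr (f := fun x => ext0 O F x + ext0 O G x)
      (fun x hx => (hF x hx).add (hG x hx)) fun x => by simp [ext0_coe]
  algebraMap_mem' := by
    intro c
    exact IsSm.congr (f := fun _ => c) (fun x _ => contDiffAt_const) fun x => by simp
  star_mem' := by
    intro F hF
    exact IsSm.congr (f := fun x => conj (ext0 O F x))
      (fun x hx => Complex.conjCLE.contDiff.contDiffAt.comp x (hF x hx))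
      fun x => by simp [ext0_coe]

namespace Sm

variable {O : Opens (Cm n)}

/-- the function `Cm n → ℂ` (zero outside `O`) -/
def fn (F : Sm O) : Cm n → ℂ := ext0 O F.1

theorem fn_smooth (F : Sm O) {x : Cm n} (hx : x ∈ O) : ContDiffAt ℝ ∞ (fn F) x := F.2 x hx

/-- restriction to `O` -/
def mk (f : Cm n → ℂ) (hf : ∀ x ∈ O, ContDiffAt ℝ ∞ f x) : Sm O :=
  ⟨fun x => f x, IsSm.congr hf fun _ => rfl⟩

theorem mk_fn (f : Cm n → ℂ) (hf : ∀ x ∈ O, ContDiffAt ℝ ∞ f x) {x : Cm n} (hx : x ∈ O) :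
    (fn (mk f hf)) x = f x := by
  simp only [fn, mk, ext0_apply O _ hx]

theorem mk_eventuallyEq (f : Cm n → ℂ) (hf : ∀ x ∈ O, ContDiffAt ℝ ∞ f x) {x : Cm n}
    (hx : x ∈ O) : (fn (mk f hf)) =ᶠ[𝓝 x] f := by
  filter_upwards [O.isOpen.mem_nhds hx] with y hy using mk_fn f hf hy

@[ext] theorem ext' {F G : Sm O} (h : ∀ x ∈ O, (fn F) x = (fn G) x) : F = G := by
  apply Subtype.ext
  funext x
  have := h x x.2
  simpa only [fn, ext0_coe] using this

/-- evaluation at a point of `O` -/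
def ev (x : O) : Sm O →⋆ₐ[ℂ] ℂ := (Pi.evalStarAlgHom ℂ (fun _ : O => ℂ) x).comp (Sm O).subtype

theorem ev_apply (x : O) (F : Sm O) : ev x F = (fn F) x := by
  simp only [fn, ext0_coe]; rfl

theorem ev_ext {F G : Sm O} (h : ∀ x : O, ev x F = ev x G) : F = G :=
  ext' fun x hx => by simpa only [ev_apply] using h ⟨x, hx⟩

theorem ev_mk (f : Cm n → ℂ) (hf : ∀ x ∈ O, ContDiffAt ℝ ∞ f x) (x : O) :
    ev x (mk f hf) = f x := by rw [ev_apply, mk_fn f hf x.2]

theorem differentiableAt (F : Sm O) {x : Cm n} (hx : x ∈ O) : DifferentiableAt ℝ (fn F) x :=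
  (fn_smooth F hx).differentiableAt (by simp)

theorem fn_add (F G : Sm O) {x : Cm n} (hx : x ∈ O) : (fn (F + G)) x = (fn F) x + (fn G) x := by
  simpa only [ev_apply] using map_add (ev (⟨x, hx⟩ : O)) F G

theorem fn_mul (F G : Sm O) {x : Cm n} (hx : x ∈ O) : (fn (F * G)) x = (fn F) x * (fn G) x := by
  simpa only [ev_apply] using map_mul (ev (⟨x, hx⟩ : O)) F G

theorem fn_star (F : Sm O) {x : Cm n} (hx : x ∈ O) : (fn (star F)) x = conj ((fn F) x) := by
  simpa only [ev_apply, starRingEnd_apply] using map_star (ev (⟨x, hx⟩ : O)) F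

/-- `∂/∂z_i` -/
def d (i : Fin n) (F : Sm O) : Sm O := mk (dz i (fn F)) fun _ hx => smooth_dz (fn_smooth F hx)

/-- `∂/∂z̄_i` -/
def db (i : Fin n) (F : Sm O) : Sm O := mk (dzb i (fn F)) fun _ hx => smooth_dzb (fn_smooth F hx)

theorem d_fn (i : Fin n) (F : Sm O) {x : Cm n} (hx : x ∈ O) : fn (d i F) x = dz i (fn F) x :=
  mk_fn _ _ hx

theorem db_fn (i : Fin n) (F : Sm O) {x : Cm n} (hx : x ∈ O) : fn (db i F) x = dzb i (fn F) x :=
  mk_fn _ _ hx

theorem d_fn_ev (i : Fin n) (F : Sm O) {x : Cm n} (hx : x ∈ O) :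
    fn (d i F) =ᶠ[𝓝 x] dz i (fn F) := mk_eventuallyEq _ _ hx

theorem db_fn_ev (i : Fin n) (F : Sm O) {x : Cm n} (hx : x ∈ O) :
    fn (db i F) =ᶠ[𝓝 x] dzb i (fn F) := mk_eventuallyEq _ _ hx

/-- the Wirtinger derivations of `Sm O` -/
def W (O : Opens (Cm n)) : WAlg n (Sm O) where
  d := d
  db := db
  d_add := by
    intro i F G
    ext x hx
    have h : fn (F + G) =ᶠ[𝓝 x] fun y => fn F y + fn G y := by
      filter_upwards [O.isOpen.mem_nhds hx] with y hy using fn_add F G hy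
    rw [d_fn _ _ hx, dz_congr h, dz_add (differentiableAt F hx) (differentiableAt G hx),
      fn_add _ _ hx, d_fn _ _ hx, d_fn _ _ hx]
  d_mul := by
    intro i F G
    ext x hx
    have h : fn (F * G) =ᶠ[𝓝 x] fun y => fn F y * fn G y := by
      filter_upwards [O.isOpen.mem_nhds hx] with y hy using fn_mul F G hy
    rw [d_fn _ _ hx, dz_congr h, dz_mul (differentiableAt F hx) (differentiableAt G hx),
      fn_add _ _ hx, fn_mul _ _ hx, fn_mul _ _ hx, d_fn _ _ hx, d_fn _ _ hx]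
  d_star := by
    intro i F
    ext x hx
    have h : fn (star F) =ᶠ[𝓝 x] fun y => conj (fn F y) := by
      filter_upwards [O.isOpen.mem_nhds hx] with y hy using fn_star F hy
    rw [d_fn _ _ hx, dz_congr h, dz_conj, fn_star _ hx, db_fn _ _ hx]
  d_d := by
    intro i j F
    ext x hx
    rw [d_fn _ _ hx, d_fn _ _ hx, dz_congr (d_fn_ev j F hx), dz_congr (d_fn_ev i F hx)]
    exact dz_dz_comm ((fn_smooth F hx).of_le (WithTop.coe_le_coe.2 le_top))
  d_db := by
    intro i j F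
    ext x hx
    rw [d_fn _ _ hx, db_fn _ _ hx, dz_congr (db_fn_ev j F hx), dzb_congr (d_fn_ev i F hx)]
    exact dz_dzb_comm ((fn_smooth F hx).of_le (WithTop.coe_le_coe.2 le_top))

@[simp] theorem W_d (i : Fin n) (F : Sm O) : (W O).d i F = d i F := rfl
@[simp] theorem W_db (i : Fin n) (F : Sm O) : (W O).db i F = db i F := rfl

theorem ev_d (x : O) (i : Fin n) (F : Sm O) : ev x (d i F) = dz i (fn F) x := by
  rw [ev_apply, d_fn _ _ x.2]

theorem ev_db (x : O) (i : Fin n) (F : Sm O) : ev x (db i F) = dzb i (fn F) x := by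
  rw [ev_apply, db_fn _ _ x.2]

/-- evaluation of a derivative of a restricted function -/
theorem ev_d_mk (x : O) (i : Fin n) (f : Cm n → ℂ) (hf : ∀ x ∈ O, ContDiffAt ℝ ∞ f x) :
    ev x (d i (mk f hf)) = dz i f x := by
  rw [ev_d, dz_congr (mk_eventuallyEq f hf x.2)]

theorem ev_db_mk (x : O) (i : Fin n) (f : Cm n → ℂ) (hf : ∀ x ∈ O, ContDiffAt ℝ ∞ f x) :
    ev x (db i (mk f hf)) = dzb i f x := by
  rw [ev_db, dzb_congr (mk_eventuallyEq f hf x.2)]

theorem ev_d_d_mk (x : O) (i j : Fin n) (f : Cm n → ℂ) (hf : ∀ x ∈ O, ContDiffAt ℝ ∞ f x) :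
    ev x (d i (d j (mk f hf))) = dz i (dz j f) x := by
  rw [ev_d, dz_congr (d_fn_ev j _ x.2), dz_congr (dz_congr' (mk_eventuallyEq f hf x.2))]

theorem ev_d_db_mk (x : O) (i j : Fin n) (f : Cm n → ℂ) (hf : ∀ x ∈ O, ContDiffAt ℝ ∞ f x) :
    ev x (d i (db j (mk f hf))) = dz i (dzb j f) x := by
  rw [ev_d, dz_congr (db_fn_ev j _ x.2), dz_congr (dzb_congr' (mk_eventuallyEq f hf x.2))]

theorem ev_db_db_mk (x : O) (i j : Fin n) (f : Cm n → ℂ) (hf : ∀ x ∈ O, ContDiffAt ℝ ∞ f x) :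
    ev x (db i (db j (mk f hf))) = dzb i (dzb j f) x := by
  rw [ev_db, dzb_congr (db_fn_ev j _ x.2), dzb_congr (dzb_congr' (mk_eventuallyEq f hf x.2))]

/-! ### matrices -/

/-- a smooth matrix valued function as a matrix over `Sm O` -/
def mkM (M : Cm n → Matrix (Fin n) (Fin n) ℂ)
    (hM : ∀ i j, ∀ x ∈ O, ContDiffAt ℝ ∞ (fun z => M z i j) x) : Matrix (Fin n) (Fin n) (Sm O) :=
  Matrix.of fun i j => mk (fun z => M z i j) (hM i j)

/-- evaluation of a matrix -/
def evM (x : O) (M : Matrix (Fin n) (Fin n) (Sm O)) : Matrix (Fin n) (Fin n) ℂ := M.map (ev x)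

@[simp] theorem evM_apply (x : O) (M : Matrix (Fin n) (Fin n) (Sm O)) (i j : Fin n) :
    evM x M i j = ev x (M i j) := rfl

theorem evM_mkM (x : O) (M : Cm n → Matrix (Fin n) (Fin n) ℂ)
    (hM : ∀ i j, ∀ x ∈ O, ContDiffAt ℝ ∞ (fun z => M z i j) x) : evM x (mkM M hM) = M x := by
  ext i j
  change ev x (mk (fun z => M z i j) (hM i j)) = _
  rw [ev_mk]

theorem evM_mul (x : O) (M N : Matrix (Fin n) (Fin n) (Sm O)) :
    evM x (M * N) = evM x M * evM x N := Matrix.map_mul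

theorem evM_add (x : O) (M N : Matrix (Fin n) (Fin n) (Sm O)) :
    evM x (M + N) = evM x M + evM x N := Matrix.map_add _ (map_add _) _ _

theorem evM_sub (x : O) (M N : Matrix (Fin n) (Fin n) (Sm O)) :
    evM x (M - N) = evM x M - evM x N := Matrix.map_sub _ (map_sub _) _ _

theorem evM_neg (x : O) (M : Matrix (Fin n) (Fin n) (Sm O)) : evM x (-M) = - evM x M := by
  ext i j; simp

theorem evM_one (x : O) : evM x (1 : Matrix (Fin n) (Fin n) (Sm O)) = 1 := by
  unfold evM; simp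

theorem evM_conjTranspose (x : O) (M : Matrix (Fin n) (Fin n) (Sm O)) :
    evM x Mᴴ = (evM x M)ᴴ := by
  ext i j
  exact map_star (ev x) (M j i)

theorem ev_trace (x : O) (M : Matrix (Fin n) (Fin n) (Sm O)) :
    ev x M.trace = (evM x M).trace := by
  simp [Matrix.trace, map_sum]

theorem ev_det (x : O) (M : Matrix (Fin n) (Fin n) (Sm O)) :
    ev x M.det = (evM x M).det := RingHom.map_det (ev x : Sm O →+* ℂ) M

/-- matrices over `Sm O` are determined by their values -/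
theorem evM_ext {M N : Matrix (Fin n) (Fin n) (Sm O)} (h : ∀ x : O, evM x M = evM x N) :
    M = N := by
  refine Matrix.ext fun i j => ev_ext fun x => ?_
  exact congrFun (congrFun (h x) i) j

end Sm

end Vale.Agent.P272.K.P1
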