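import Mathlib.Analysis.SpecialFunctions.Complex.CircleAddChar
import Mathlib.Algebra.Order.Chebyshev
import Mathlib.Analysis.Matrix.PosDef
import Mathlib.Analysis.Matrix.Order
import Mathlib.Tactic

/-!
# Averaging a quartic form over cube roots of unity
-/

namespace Vale.Agent.P272.K.P1

open Matrix Finset
open scoped ComplexConjugate ComplexOrder

noncomputable section

/-- a primitive cubic character -/
def ze (x : ZMod 3) : ℂ := ZMod.stdAddChar x

lemma ze_add (x y : ZMod 3) : ze (x + y) = ze x * ze y := AddChar.map_add_eq_mul _ _ _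

lemma ze_mul_conj (x : ZMod 3) : ze x * conj (ze x) = 1 := by
  rw [Complex.mul_conj, ze, ZMod.stdAddChar_apply, Circle.normSq_coe, Complex.ofReal_one]

lemma ze_one_ne : ze 1 ≠ 1 := by
  intro h
  have h0 : (ZMod.stdAddChar (0 : ZMod 3)) = (1 : ℂ) := AddChar.map_zero_eq_one _
  have := ZMod.injective_stdAddChar (h.trans h0.symm)
  exact absurd this (by decide)

lemma ze_one_sq_ne : ze 1 * ze 1 ≠ 1 := by
  intro h
  rw [← ze_add] at h
  have h0 : (ZMod.stdAddChar (0 : ZMod 3)) = (1 : ℂ) := AddChar.map_zero_eq_one _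
  have := ZMod.injective_stdAddChar (h.trans h0.symm)
  exact absurd this (by decide)

variable {n : ℕ}

/-- the phases -/
def eps (m : Fin n → ZMod 3) (a : Fin n) : ℂ := ze (m a)

lemma eps_mul_conj (m : Fin n → ZMod 3) (a : Fin n) : eps m a * conj (eps m a) = 1 :=
  ze_mul_conj _

/-- the shifted configuration -/
def shf (a : Fin n) : (Fin n → ZMod 3) ≃ (Fin n → ZMod 3) := Equiv.addRight (Pi.single a 1)

lemma eps_shf_self (m : Fin n → ZMod 3) (a : Fin n) : eps (shf a m) a = eps m a * ze 1 := by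
  simp [eps, shf, ze_add]

lemma eps_shf_ne (m : Fin n → ZMod 3) {a b : Fin n} (h : b ≠ a) : eps (shf a m) b = eps m b := by
  simp [eps, shf, h]

lemma sum_eq_zero_of_shift {f : (Fin n → ZMod 3) → ℂ} {a : Fin n} {w : ℂ} (hw : w ≠ 1)
    (h : ∀ m, f (shf a m) = f m * w) : ∑ m, f m = 0 := by
  have h1 : ∑ m, f m = ∑ m, f (shf a m) := (Equiv.sum_comp (shf a) f).symm
  have h2 : ∑ m, f m = (∑ m, f m) * w := by
    conv_lhs => rw [h1]
    simp only [h, Finset.sum_mul]
  by_contra hne
  exact hw (mul_left_cancel₀ hne (by rw [← h2, mul_one]))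

lemma sum_two (c d : Fin n) : ∑ m : Fin n → ZMod 3, eps m c * conj (eps m d) =
    if c = d then (3 : ℂ) ^ n else 0 := by
  split_ifs with h
  · subst h
    simp only [eps_mul_conj, sum_const, nsmul_eq_mul, mul_one, card_univ, Fintype.card_fun,
      Fintype.card_fin, ZMod.card]
    push_cast; rfl
  · refine sum_eq_zero_of_shift (a := c) ze_one_ne fun m => ?_
    rw [eps_shf_self, eps_shf_ne m (Ne.symm h)]
    ring

/-- Kronecker delta -/
def dl (a b : Fin n) : ℂ := if a = b then 1 else 0

lemma dl_self (a : Fin n) : dl a a = 1 := by simp [dl]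

lemma dl_ne {a b : Fin n} (h : a ≠ b) : dl a b = 0 := by simp [dl, h]

lemma sum_dl (F : Fin n → ℂ) (c : Fin n) : ∑ d, F d * dl c d = F c := by simp [dl]

lemma sum_four (a b c d : Fin n) :
    ∑ m : Fin n → ZMod 3, eps m a * conj (eps m b) * eps m c * conj (eps m d) =
      (3 : ℂ) ^ n * (dl a b * dl c d + dl a d * dl b c - dl a b * dl a c * dl a d) := by
  by_cases hab : a = b
  · subst hab
    have h : ∀ m : Fin n → ZMod 3, eps m a * conj (eps m a) * eps m c * conj (eps m d) =
        eps m c * conj (eps m d) := fun m => by rw [eps_mul_conj]; ring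
    simp only [h, sum_two, dl_self]
    by_cases hcd : c = d
    · subst hcd
      by_cases hac : a = c
      · simp [hac, dl]
      · simp [hac, dl]
    · by_cases had : a = d
      · subst had
        have : ¬ a = c := fun h => hcd h.symm
        simp [hcd, this, dl]
      · simp [hcd, had, dl]
  · by_cases had : a = d
    · subst had
      have h : ∀ m : Fin n → ZMod 3, eps m a * conj (eps m b) * eps m c * conj (eps m a) =
          eps m c * conj (eps m b) := fun m => by
        have := eps_mul_conj m a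
        linear_combination (eps m c * conj (eps m b)) * this
      simp only [h, sum_two]
      by_cases hbc : b = c
      · subst hbc; simp [hab, dl]
      · have : ¬ c = b := fun h => hbc h.symm
        simp [hab, hbc, this, dl]
    · rw [dl_ne hab, dl_ne had]
      have hb : b ≠ a := fun h => hab h.symm
      have hd : d ≠ a := fun h => had h.symm
      simp only [zero_mul, add_zero, sub_zero, mul_zero]
      by_cases hac : c = a
      · subst hac
        refine sum_eq_zero_of_shift (a := c) ze_one_sq_ne fun m => ?_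
        rw [eps_shf_self, eps_shf_ne m hb, eps_shf_ne m hd]
        ring
      · refine sum_eq_zero_of_shift (a := a) ze_one_ne fun m => ?_
        rw [eps_shf_self, eps_shf_ne m hb, eps_shf_ne m hd, eps_shf_ne m hac]
        ring

/-- averaging a quartic form -/
lemma sum_quartic (f : Fin n → Fin n → Fin n → Fin n → ℂ) :
    ∑ m : Fin n → ZMod 3, ∑ a, ∑ b, ∑ c, ∑ d,
      f a b c d * (eps m a * conj (eps m b) * eps m c * conj (eps m d)) =
      (3 : ℂ) ^ n * (∑ a, ∑ c, f a a c c + ∑ a, ∑ b, f a b b a - ∑ a, f a a a a) := by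
  have h1 : ∑ m : Fin n → ZMod 3, ∑ a, ∑ b, ∑ c, ∑ d,
      f a b c d * (eps m a * conj (eps m b) * eps m c * conj (eps m d)) =
      ∑ a, ∑ b, ∑ c, ∑ d, f a b c d *
        ∑ m : Fin n → ZMod 3, (eps m a * conj (eps m b) * eps m c * conj (eps m d)) := by
    simp only [Finset.mul_sum]
    rw [Finset.sum_comm]
    refine Finset.sum_congr rfl fun a _ => ?_
    rw [Finset.sum_comm]
    refine Finset.sum_congr rfl fun b _ => ?_
    rw [Finset.sum_comm]
    refine Finset.sum_congr rfl fun c _ => ?_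
    rw [Finset.sum_comm]
  rw [h1]
  simp only [sum_four]
  have e : ∀ a b c d, f a b c d * ((3 : ℂ) ^ n * (dl a b * dl c d + dl a d * dl b c
      - dl a b * dl a c * dl a d)) = (3 : ℂ) ^ n * (f a b c d * dl a b * dl c d)
      + (3 : ℂ) ^ n * (f a b c d * dl b c * dl a d)
      - (3 : ℂ) ^ n * (f a b c d * dl a b * dl a c * dl a d) := by
    intro a b c d; ring
  simp only [e, Finset.sum_add_distrib, Finset.sum_sub_distrib, ← Finset.mul_sum]
  have i1 : ∑ a, ∑ b, ∑ c, ∑ d, f a b c d * dl a b * dl c d = ∑ a, ∑ c, f a a c c := by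
    refine Finset.sum_congr rfl fun a _ => ?_
    simp only [sum_dl]
    rw [Finset.sum_comm]
    exact Finset.sum_congr rfl fun c _ => sum_dl (fun b => f a b c c) a
  have i2 : ∑ a, ∑ b, ∑ c, ∑ d, f a b c d * dl b c * dl a d = ∑ a, ∑ b, f a b b a := by
    refine Finset.sum_congr rfl fun a _ => Finset.sum_congr rfl fun b _ => ?_
    simp only [sum_dl]
  have i3 : ∑ a, ∑ b, ∑ c, ∑ d, f a b c d * dl a b * dl a c * dl a d = ∑ a, f a a a a := by
    refine Finset.sum_congr rfl fun a _ => ?_
    simp only [sum_dl]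
  rw [i1, i2, i3]
  ring

/-- the quartic form of a four index array -/
def quart (E : Fin n → Fin n → Matrix (Fin n) (Fin n) ℂ) (u v w x : Fin n → ℂ) : ℂ :=
  ∑ i, ∑ j, ∑ k, ∑ l, E i j k l * (u i * conj (v j) * w k * conj (x l))

section quart

variable (E : Fin n → Fin n → Matrix (Fin n) (Fin n) ℂ) (B : Matrix (Fin n) (Fin n) ℂ)

lemma lin_aux (c : Fin n → ℂ) (Q : Fin n → ℂ) :
    ∑ i, (∑ a, c a * B a i) * Q i = ∑ a, c a * ∑ i, B a i * Q i := by
  simp only [Finset.sum_mul, Finset.mul_sum]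
  rw [Finset.sum_comm]
  simp only [mul_assoc]

lemma lin_aux' (c : Fin n → ℂ) (Q : Fin n → ℂ) :
    ∑ i, conj (∑ a, c a * B a i) * Q i = ∑ a, conj (c a) * ∑ i, conj (B a i) * Q i := by
  simp only [map_sum, map_mul, Finset.sum_mul, Finset.mul_sum]
  rw [Finset.sum_comm]
  simp only [mul_assoc]

lemma quart_one (u v w x : Fin n → ℂ) : quart E u v w x =
    ∑ i, u i * ∑ j, ∑ k, ∑ l, E i j k l * (conj (v j) * w k * conj (x l)) := by
  simp only [quart, Finset.mul_sum]
  refine Finset.sum_congr rfl fun i _ => Finset.sum_congr rfl fun j _ =>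
    Finset.sum_congr rfl fun k _ => Finset.sum_congr rfl fun l _ => ?_
  ring

lemma quart_two (u v w x : Fin n → ℂ) : quart E u v w x =
    ∑ j, conj (v j) * ∑ i, ∑ k, ∑ l, E i j k l * (u i * w k * conj (x l)) := by
  simp only [quart, Finset.mul_sum]
  rw [Finset.sum_comm]
  refine Finset.sum_congr rfl fun i _ => Finset.sum_congr rfl fun j _ =>
    Finset.sum_congr rfl fun k _ => Finset.sum_congr rfl fun l _ => ?_
  ring

lemma quart_three (u v w x : Fin n → ℂ) : quart E u v w x =
    ∑ k, w k * ∑ i, ∑ j, ∑ l, E i j k l * (u i * conj (v j) * conj (x l)) := by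
  simp only [quart, Finset.mul_sum]
  rw [Finset.sum_comm' (t' := Finset.univ) (s' := fun _ => Finset.univ) (by simp)]
  rw [Finset.sum_comm]
  have : ∀ i j : Fin n, ∑ k, ∑ l, E i j k l * (u i * conj (v j) * w k * conj (x l)) =
      ∑ k, ∑ l, w k * (E i j k l * (u i * conj (v j) * conj (x l))) := fun i j =>
    Finset.sum_congr rfl fun k _ => Finset.sum_congr rfl fun l _ => by ring
  simp only [this]
  calc ∑ i, ∑ j, ∑ k, ∑ l, w k * (E i j k l * (u i * conj (v j) * conj (x l)))
      = ∑ i, ∑ k, ∑ j, ∑ l, w k * (E i j k l * (u i * conj (v j) * conj (x l))) :=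
        Finset.sum_congr rfl fun i _ => Finset.sum_comm
    _ = _ := Finset.sum_comm

lemma quart_four (u v w x : Fin n → ℂ) : quart E u v w x =
    ∑ l, conj (x l) * ∑ i, ∑ j, ∑ k, E i j k l * (u i * conj (v j) * w k) := by
  simp only [quart, Finset.mul_sum]
  have : ∀ i j : Fin n, ∑ k, ∑ l, E i j k l * (u i * conj (v j) * w k * conj (x l)) =
      ∑ k, ∑ l, conj (x l) * (E i j k l * (u i * conj (v j) * w k)) := fun i j =>
    Finset.sum_congr rfl fun k _ => Finset.sum_congr rfl fun l _ => by ring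
  simp only [this]
  calc ∑ i, ∑ j, ∑ k, ∑ l, conj (x l) * (E i j k l * (u i * conj (v j) * w k))
      = ∑ i, ∑ j, ∑ l, ∑ k, conj (x l) * (E i j k l * (u i * conj (v j) * w k)) :=
        Finset.sum_congr rfl fun i _ => Finset.sum_congr rfl fun j _ => Finset.sum_comm
    _ = ∑ i, ∑ l, ∑ j, ∑ k, conj (x l) * (E i j k l * (u i * conj (v j) * w k)) :=
        Finset.sum_congr rfl fun i _ => Finset.sum_comm
    _ = _ := Finset.sum_comm

lemma quart_expand (c : Fin n → ℂ) :
    quart E (fun i => ∑ a, c a * B a i) (fun i => ∑ a, c a * B a i) (fun i => ∑ a, c a * B a i)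
      (fun i => ∑ a, c a * B a i) =
    ∑ a, ∑ b, ∑ p, ∑ q, quart E (B a) (B b) (B p) (B q) *
      (c a * conj (c b) * c p * conj (c q)) := by
  have h1 : ∀ v w x : Fin n → ℂ, quart E (fun i => ∑ a, c a * B a i) v w x =
      ∑ a, c a * quart E (B a) v w x := fun v w x => by
    simp only [quart_one, lin_aux]
  have h2 : ∀ u w x : Fin n → ℂ, quart E u (fun i => ∑ a, c a * B a i) w x =
      ∑ a, conj (c a) * quart E u (B a) w x := fun v w x => by
    simp only [quart_two, lin_aux']
  have h3 : ∀ u v x : Fin n → ℂ, quart E u v (fun i => ∑ a, c a * B a i) x =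
      ∑ a, c a * quart E u v (B a) x := fun v w x => by
    simp only [quart_three, lin_aux]
  have h4 : ∀ u v w : Fin n → ℂ, quart E u v w (fun i => ∑ a, c a * B a i) =
      ∑ a, conj (c a) * quart E u v w (B a) := fun v w x => by
    simp only [quart_four, lin_aux']
  simp only [h1, h2, h3, h4, Finset.mul_sum]
  refine Finset.sum_congr rfl fun i _ => Finset.sum_congr rfl fun j _ =>
    Finset.sum_congr rfl fun k _ => Finset.sum_congr rfl fun l _ => ?_
  ring

/-- the hermitian form -/
def herm (H : Matrix (Fin n) (Fin n) ℂ) (v : Fin n → ℂ) : ℂ :=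
  ∑ i, ∑ j, H i j * (v i * conj (v j))

lemma herm_expand (H : Matrix (Fin n) (Fin n) ℂ) (c : Fin n → ℂ) :
    herm H (fun i => ∑ a, c a * B a i) =
      ∑ a, ∑ b, (c a * conj (c b)) * ∑ i, ∑ j, H i j * (B a i * conj (B b j)) := by
  have e1 : ∀ v : Fin n → ℂ, herm H v = ∑ i, v i * ∑ j, conj (v j) * H i j := fun v => by
    simp only [herm, Finset.mul_sum]
    refine Finset.sum_congr rfl fun i _ => Finset.sum_congr rfl fun j _ => ?_
    ring
  have e2 : ∀ (a b : Fin n), (∑ i, ∑ j, H i j * (B a i * conj (B b j))) =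
      ∑ i, B a i * ∑ j, conj (B b j) * H i j := fun a b => by
    simp only [Finset.mul_sum]
    refine Finset.sum_congr rfl fun i _ => Finset.sum_congr rfl fun j _ => ?_
    ring
  rw [e1, lin_aux]
  refine Finset.sum_congr rfl fun a _ => ?_
  have e3 : ∀ i, (∑ j, conj (∑ a, c a * B a j) * H i j) =
      ∑ b, conj (c b) * ∑ j, conj (B b j) * H i j := fun i => lin_aux' B c (fun j => H i j)
  simp only [e2, e3]
  have e4 : ∑ i, B a i * ∑ b, conj (c b) * ∑ j, conj (B b j) * H i j =
      ∑ b, conj (c b) * ∑ i, B a i * ∑ j, conj (B b j) * H i j := by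
    simp only [Finset.mul_sum]
    rw [Finset.sum_comm]
    refine Finset.sum_congr rfl fun i _ => Finset.sum_congr rfl fun j _ =>
      Finset.sum_congr rfl fun k _ => ?_
    ring
  rw [e4, Finset.mul_sum]
  refine Finset.sum_congr rfl fun i _ => ?_
  ring

variable {B}

lemma sum_frame {Gi : Matrix (Fin n) (Fin n) ℂ} (hB : Gi = Bᴴ * B) (i j : Fin n) :
    ∑ a, B a i * conj (B a j) = Gi j i := by
  rw [hB, Matrix.mul_apply]
  refine Finset.sum_congr rfl fun a _ => ?_
  rw [Matrix.conjTranspose_apply, mul_comm]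
  rfl

lemma sum_herm_frame {Gi : Matrix (Fin n) (Fin n) ℂ} (hB : Gi = Bᴴ * B)
    (H : Matrix (Fin n) (Fin n) ℂ) :
    ∑ a, ∑ i, ∑ j, H i j * (B a i * conj (B a j)) = (Gi * H).trace := by
  rw [Finset.sum_comm]
  have : ∀ i, ∑ a, ∑ j, H i j * (B a i * conj (B a j)) = ∑ j, H i j * Gi j i := fun i => by
    rw [Finset.sum_comm]
    refine Finset.sum_congr rfl fun j _ => ?_
    rw [← Finset.mul_sum, sum_frame hB]
  simp only [this]
  rw [Matrix.trace_mul_comm]
  simp only [Matrix.trace, Matrix.diag_apply, Matrix.mul_apply]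

lemma sum_quart_frame {Gi : Matrix (Fin n) (Fin n) ℂ} (hB : Gi = Bᴴ * B) :
    ∑ a, ∑ c, quart E (B a) (B a) (B c) (B c) =
      ∑ i, ∑ j, Gi j i * (Gi * E i j).trace := by
  have e1 : ∀ i j, Gi j i * (Gi * E i j).trace = ∑ k, ∑ l, E i j k l * (Gi j i * Gi l k) := by
    intro i j
    rw [Matrix.trace_mul_comm]
    simp only [Matrix.trace, Matrix.diag_apply, Matrix.mul_apply, Finset.mul_sum]
    refine Finset.sum_congr rfl fun k _ => Finset.sum_congr rfl fun l _ => ?_
    ring
  simp only [e1, quart]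
  calc ∑ a, ∑ c, ∑ i, ∑ j, ∑ k, ∑ l, E i j k l * (B a i * conj (B a j) * B c k * conj (B c l))
      = ∑ a, ∑ i, ∑ j, ∑ k, ∑ l, ∑ c,
          E i j k l * (B a i * conj (B a j) * B c k * conj (B c l)) := by
        refine Finset.sum_congr rfl fun a _ => ?_
        rw [Finset.sum_comm]; refine Finset.sum_congr rfl fun i _ => ?_
        rw [Finset.sum_comm]; refine Finset.sum_congr rfl fun j _ => ?_
        rw [Finset.sum_comm]; refine Finset.sum_congr rfl fun k _ => ?_
        rw [Finset.sum_comm]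
    _ = ∑ i, ∑ j, ∑ k, ∑ l, ∑ a, ∑ c,
          E i j k l * (B a i * conj (B a j) * B c k * conj (B c l)) := by
        rw [Finset.sum_comm]; refine Finset.sum_congr rfl fun i _ => ?_
        rw [Finset.sum_comm]; refine Finset.sum_congr rfl fun j _ => ?_
        rw [Finset.sum_comm]; refine Finset.sum_congr rfl fun k _ => ?_
        rw [Finset.sum_comm]
    _ = _ := by
        refine Finset.sum_congr rfl fun i _ => Finset.sum_congr rfl fun j _ =>
          Finset.sum_congr rfl fun k _ => Finset.sum_congr rfl fun l _ => ?_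
        rw [← sum_frame hB i j, ← sum_frame hB k l, Finset.sum_mul_sum, Finset.mul_sum]
        refine Finset.sum_congr rfl fun a _ => ?_
        rw [Finset.mul_sum]
        refine Finset.sum_congr rfl fun c _ => ?_
        ring

lemma sum_quart_frame' {Gi : Matrix (Fin n) (Fin n) ℂ} (hB : Gi = Bᴴ * B) :
    ∑ a, ∑ c, quart E (B a) (B c) (B c) (B a) =
      ∑ i, ∑ j, (Gi * E i j * Gi) j i := by
  have e1 : ∀ i j, (Gi * E i j * Gi) j i = ∑ k, ∑ l, E i j k l * (Gi l i * Gi j k) := by
    intro i j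
    simp only [Matrix.mul_apply, Finset.sum_mul]
    rw [Finset.sum_comm]
    refine Finset.sum_congr rfl fun k _ => Finset.sum_congr rfl fun l _ => ?_
    ring
  simp only [e1, quart]
  calc ∑ a, ∑ c, ∑ i, ∑ j, ∑ k, ∑ l, E i j k l * (B a i * conj (B c j) * B c k * conj (B a l))
      = ∑ a, ∑ i, ∑ j, ∑ k, ∑ l, ∑ c,
          E i j k l * (B a i * conj (B c j) * B c k * conj (B a l)) := by
        refine Finset.sum_congr rfl fun a _ => ?_
        rw [Finset.sum_comm]; refine Finset.sum_congr rfl fun i _ => ?_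
        rw [Finset.sum_comm]; refine Finset.sum_congr rfl fun j _ => ?_
        rw [Finset.sum_comm]; refine Finset.sum_congr rfl fun k _ => ?_
        rw [Finset.sum_comm]
    _ = ∑ i, ∑ j, ∑ k, ∑ l, ∑ a, ∑ c,
          E i j k l * (B a i * conj (B c j) * B c k * conj (B a l)) := by
        rw [Finset.sum_comm]; refine Finset.sum_congr rfl fun i _ => ?_
        rw [Finset.sum_comm]; refine Finset.sum_congr rfl fun j _ => ?_
        rw [Finset.sum_comm]; refine Finset.sum_congr rfl fun k _ => ?_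
        rw [Finset.sum_comm]
    _ = _ := by
        refine Finset.sum_congr rfl fun i _ => Finset.sum_congr rfl fun j _ =>
          Finset.sum_congr rfl fun k _ => Finset.sum_congr rfl fun l _ => ?_
        rw [← sum_frame hB i l, ← sum_frame hB k j, Finset.sum_mul_sum, Finset.mul_sum]
        refine Finset.sum_congr rfl fun a _ => ?_
        rw [Finset.mul_sum]
        refine Finset.sum_congr rfl fun c _ => ?_
        ring

/-- Royden type averaging inequality. -/
theorem avg_ineq {Gi H : Matrix (Fin n) (Fin n) ℂ} (hB : Gi = Bᴴ * B) {k : ℝ} (hk : 0 ≤ k)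
    (hE : ∀ v : Fin n → ℂ, k * ((herm H v).re) ^ 2 ≤ (quart E v v v v).re) :
    k * ((Gi * H).trace.re) ^ 2 ≤
      (∑ i, ∑ j, Gi j i * (Gi * E i j).trace + ∑ i, ∑ j, (Gi * E i j * Gi) j i).re := by
  set v : (Fin n → ZMod 3) → Fin n → ℂ := fun m i => ∑ a, eps m a * B a i with hv
  -- the sum of the hermitian forms
  have s1 : ∑ m, herm H (v m) = (3 : ℂ) ^ n * (Gi * H).trace := by
    have : ∀ m, herm H (v m) = ∑ a, ∑ b, (eps m a * conj (eps m b)) *
        ∑ i, ∑ j, H i j * (B a i * conj (B b j)) := fun m => herm_expand B H (eps m)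
    simp only [this]
    rw [Finset.sum_comm]
    have e : ∀ a, ∑ m : Fin n → ZMod 3, ∑ b, (eps m a * conj (eps m b)) *
        ∑ i, ∑ j, H i j * (B a i * conj (B b j)) =
        (3 : ℂ) ^ n * ∑ i, ∑ j, H i j * (B a i * conj (B a j)) := by
      intro a
      rw [Finset.sum_comm]
      simp only [← Finset.sum_mul, sum_two, ite_mul, zero_mul]
      rw [Finset.sum_ite_eq]
      simp
    simp only [e, ← Finset.mul_sum]
    rw [sum_herm_frame hB]
  have s1' : ∑ m, (herm H (v m)).re = (3 : ℝ) ^ n * (Gi * H).trace.re := by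
    rw [← Complex.re_sum, s1]
    have : ((3 : ℂ) ^ n) = (((3 : ℝ) ^ n : ℝ) : ℂ) := by push_cast; rfl
    rw [this, Complex.re_ofReal_mul]
  -- Cauchy-Schwarz
  have s2 : (3 : ℝ) ^ n * ((Gi * H).trace.re) ^ 2 ≤ ∑ m, (herm H (v m)).re ^ 2 := by
    have cs := sq_sum_le_card_mul_sum_sq (s := (Finset.univ : Finset (Fin n → ZMod 3)))
      (f := fun m => (herm H (v m)).re)
    rw [s1', Finset.card_univ, Fintype.card_fun, Fintype.card_fin, ZMod.card] at cs
    push_cast at cs
    have h3 : (0 : ℝ) < 3 ^ n := by positivity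
    nlinarith [cs, h3]
  -- the sum of the quartic forms
  have s3 : ∑ m, quart E (v m) (v m) (v m) (v m) =
      (3 : ℂ) ^ n * (∑ a, ∑ c, quart E (B a) (B a) (B c) (B c)
        + ∑ a, ∑ b, quart E (B a) (B b) (B b) (B a)
        - ∑ a, quart E (B a) (B a) (B a) (B a)) := by
    have : ∀ m, quart E (v m) (v m) (v m) (v m) = _ := fun m => quart_expand E B (eps m)
    simp only [this]
    exact sum_quartic (fun a b c d => quart E (B a) (B b) (B c) (B d))
  have s3' : ∑ m, (quart E (v m) (v m) (v m) (v m)).re =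
      (3 : ℝ) ^ n * ((∑ a, ∑ c, quart E (B a) (B a) (B c) (B c)
        + ∑ a, ∑ b, quart E (B a) (B b) (B b) (B a)).re
        - ∑ a, (quart E (B a) (B a) (B a) (B a)).re) := by
    rw [← Complex.re_sum, s3]
    have : ((3 : ℂ) ^ n) = (((3 : ℝ) ^ n : ℝ) : ℂ) := by push_cast; rfl
    rw [this, Complex.re_ofReal_mul, Complex.sub_re, Complex.re_sum]
  have s4 : 0 ≤ ∑ a, (quart E (B a) (B a) (B a) (B a)).re :=
    Finset.sum_nonneg fun a _ => le_trans (by positivity) (hE (B a))
  have s5 : k * ∑ m, (herm H (v m)).re ^ 2 ≤ ∑ m, (quart E (v m) (v m) (v m) (v m)).re := by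
    rw [Finset.mul_sum]
    exact Finset.sum_le_sum fun m _ => hE (v m)
  rw [← sum_quart_frame E hB, ← sum_quart_frame' E hB]
  have h3 : (0 : ℝ) < 3 ^ n := by positivity
  have s6 : (3 : ℝ) ^ n * (k * ((Gi * H).trace.re) ^ 2) ≤ 3 ^ n *
      (∑ a, ∑ c, quart E (B a) (B a) (B c) (B c)
        + ∑ a, ∑ b, quart E (B a) (B b) (B b) (B a)).re := by
    calc (3 : ℝ) ^ n * (k * ((Gi * H).trace.re) ^ 2)
        = k * ((3 : ℝ) ^ n * ((Gi * H).trace.re) ^ 2) := by ring
      _ ≤ k * ∑ m, (herm H (v m)).re ^ 2 := mul_le_mul_of_nonneg_left s2 hk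
      _ ≤ _ := s5
      _ = _ := s3'
      _ ≤ _ := by
        apply mul_le_mul_of_nonneg_left _ h3.le
        linarith
  exact le_of_mul_le_mul_left s6 h3

end quart

end

end Vale.Agent.P272.K.P1
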