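import Vale.Agent.P272.K.P1.WAlg

/-!
# The pointwise identity

`G` is a Kähler metric (as a matrix over a star ring with Wirtinger derivations), `H` a second
Hermitian form. We compute `∑ ∂_i ∂̄_j (det G * (tr(G⁻¹H) G⁻¹ + G⁻¹HG⁻¹)_{ji})`.
-/

namespace Vale.Agent.P272.K.P1

open Matrix

set_option linter.unusedSectionVars false

/-- A Kähler metric over a Wirtinger algebra, with its inverse. -/
structure KMet {n : ℕ} {A : Type*} [CommRing A] [StarRing A] (W : WAlg n A) where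
  G : Matrix (Fin n) (Fin n) A
  Gi : Matrix (Fin n) (Fin n) A
  mul_inv : G * Gi = 1
  inv_mul : Gi * G = 1
  herm : Gᴴ = G
  closed : ∀ i j k, W.d k (G i j) = W.d i (G k j)

namespace KMet

variable {n : ℕ} {A : Type*} [CommRing A] [StarRing A] {W : WAlg n A} (K : KMet W)

lemma herm_inv : K.Giᴴ = K.Gi := by
  have h : K.Giᴴ * K.G = 1 := by
    rw [← K.herm, ← conjTranspose_mul, K.mul_inv, conjTranspose_one]
  calc K.Giᴴ = K.Giᴴ * (K.G * K.Gi) := by rw [K.mul_inv, mul_one]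
    _ = K.Gi := by rw [← mul_assoc, h, one_mul]

/-- the Christoffel matrices `(Γ_i)_{k p} = Γ^p_{i k}` -/
def Ga (i : Fin n) : Matrix (Fin n) (Fin n) A := W.D i K.G * K.Gi

lemma Db_G (j : Fin n) : W.Db j K.G = (W.D j K.G)ᴴ := by
  rw [← W.Db_conjTranspose, K.herm]

lemma D_G_eq (i : Fin n) : W.D i K.G = K.Ga i * K.G := by
  rw [Ga, mul_assoc, K.inv_mul, mul_one]

lemma Db_G_eq (j : Fin n) : W.Db j K.G = K.G * (K.Ga j)ᴴ := by
  rw [K.Db_G, K.D_G_eq, conjTranspose_mul, K.herm]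

lemma D_Gi (i : Fin n) : W.D i K.Gi = -(K.Gi * K.Ga i) := by
  rw [W.D_inv K.mul_inv K.inv_mul, Ga, mul_assoc]

lemma Db_Gi (j : Fin n) : W.Db j K.Gi = -((K.Ga j)ᴴ * K.Gi) := by
  rw [W.Db_inv K.mul_inv K.inv_mul, K.Db_G_eq, ← mul_assoc, K.inv_mul, one_mul]

lemma Ga_symm (i k p : Fin n) : K.Ga i k p = K.Ga k i p := by
  simp only [Ga, mul_apply, WAlg.D_apply]
  exact Finset.sum_congr rfl fun q _ => by rw [K.closed]

/-- the curvature matrices `(R_{ij})_{ab} = R_{i j̄ a b̄}` -/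
def R (i j : Fin n) : Matrix (Fin n) (Fin n) A :=
  -(W.D i (W.Db j K.G)) + W.D i K.G * K.Gi * W.Db j K.G

lemma Db_Ga (i j : Fin n) : W.Db j (K.Ga i) = -(K.R i j * K.Gi) := by
  have h : W.Db j (K.Ga i) = W.Db j (W.D i K.G) * K.Gi
      - W.D i K.G * K.Gi * W.Db j K.G * K.Gi := by
    rw [Ga, W.Db_mul, W.Db_inv K.mul_inv K.inv_mul]
    noncomm_ring
  rw [h, R, W.D_Db]
  noncomm_ring

lemma R_conjTranspose (i j : Fin n) : (K.R i j)ᴴ = K.R j i := by
  have h1 : (W.D i (W.Db j K.G))ᴴ = W.D j (W.Db i K.G) := by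
    rw [← W.Db_conjTranspose, ← W.D_conjTranspose, K.herm, W.D_Db]
  have h2 : (W.Db j K.G)ᴴ = W.D j K.G := by rw [K.Db_G, conjTranspose_conjTranspose]
  rw [R, conjTranspose_add, conjTranspose_neg, h1, conjTranspose_mul, conjTranspose_mul,
    K.herm_inv, h2, ← K.Db_G, R, mul_assoc]

lemma D_Ga_star (i j : Fin n) : W.D i (K.Ga j)ᴴ = -(K.Gi * K.R i j) := by
  rw [W.D_conjTranspose, K.Db_Ga, conjTranspose_neg, conjTranspose_mul, K.herm_inv,
    K.R_conjTranspose]

lemma closed' (i j k : Fin n) : W.db k (K.G i j) = W.db j (K.G i k) := by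
  have h : ∀ a b, K.G a b = star (K.G b a) := fun a b => by
    have := congrFun (congrFun K.herm a) b
    rw [← this]; rfl
  rw [h i j, W.db_star, K.closed, ← W.db_star, ← h]

/-- Kähler symmetry in the holomorphic indices -/
lemma R_symm (i j a b : Fin n) : K.R i j a b = K.R a j i b := by
  simp only [R, Matrix.add_apply, Matrix.neg_apply, Matrix.mul_apply, WAlg.D_apply,
    WAlg.Db_apply]
  congr 1
  · rw [W.d_db, W.d_db, K.closed]
  · refine Finset.sum_congr rfl fun q _ => ?_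
    congr 1
    exact Finset.sum_congr rfl fun p _ => by rw [K.closed]

/-- Kähler symmetry in the antiholomorphic indices -/
lemma R_symm' (i j a b : Fin n) : K.R i j a b = K.R i b a j := by
  have h : ∀ i j a b, K.R i j a b = star (K.R j i b a) := fun i j a b => by
    rw [← K.R_conjTranspose j i]; simp [conjTranspose_apply]
  rw [h, K.R_symm, ← h]

/-- the Ricci form `Ric_{a b̄}` -/
def Ric : Matrix (Fin n) (Fin n) A := Matrix.of fun a b => (K.R a b * K.Gi).trace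

lemma Ric_apply (a b : Fin n) : K.Ric a b = (K.R a b * K.Gi).trace := rfl

lemma Ric_apply' (a j : Fin n) : ∑ i, (K.R i j * K.Gi) a i = K.Ric a j := by
  simp only [Ric, of_apply, trace, diag, Matrix.mul_apply]
  exact Finset.sum_congr rfl fun i _ => Finset.sum_congr rfl fun b _ => by rw [K.R_symm]

lemma Ric_eq : K.Ric = ∑ i, ∑ j, K.Gi j i • K.R i j := by
  ext a b
  simp only [Ric, of_apply, trace, diag, Matrix.mul_apply, Matrix.sum_apply, Matrix.smul_apply,
    smul_eq_mul]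
  refine Finset.sum_congr rfl fun i _ => Finset.sum_congr rfl fun j _ => ?_
  rw [K.R_symm i j a b, K.R_symm' a j i b, mul_comm]

lemma sum_R (U : Matrix (Fin n) (Fin n) A) :
    ∑ i, ∑ j, K.Gi j i * (U * K.R i j).trace = (U * K.Ric).trace := by
  simp only [K.Ric_eq, Matrix.mul_sum, Matrix.trace_sum, Matrix.mul_smul, Matrix.trace_smul,
    smul_eq_mul]

lemma sum_R' (U : Matrix (Fin n) (Fin n) A) :
    ∑ i, ∑ j, (U * K.R i j * K.Gi) j i = (U * K.Ric).trace := by
  rw [Finset.sum_comm]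
  simp only [trace, diag]
  refine Finset.sum_congr rfl fun j _ => ?_
  have h : ∀ i, (U * K.R i j * K.Gi) j i = ∑ a, U j a * (K.R i j * K.Gi) a i := fun i => by
    rw [mul_assoc, Matrix.mul_apply]
  simp only [h]
  rw [Finset.sum_comm, Matrix.mul_apply]
  exact Finset.sum_congr rfl fun a _ => by rw [← Finset.mul_sum, K.Ric_apply']

/-- the contraction of the second derivatives of `H` corrected by the Christoffel symbols -/
def E (H : Matrix (Fin n) (Fin n) A) (i j : Fin n) : Matrix (Fin n) (Fin n) A :=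
  W.D i (W.Db j H) - K.Ga i * W.Db j H - W.D i H * (K.Ga j)ᴴ + K.Ga i * H * (K.Ga j)ᴴ

lemma d_db_trace (H : Matrix (Fin n) (Fin n) A) (i j : Fin n) :
    W.d i (W.db j (K.Gi * H).trace) =
      (K.Gi * K.E H i j).trace + (K.Gi * H * K.Gi * K.R i j).trace := by
  have h1 : W.Db j (K.Gi * H) = -((K.Ga j)ᴴ * K.Gi * H) + K.Gi * W.Db j H := by
    rw [W.Db_mul, K.Db_Gi]; noncomm_ring
  have h2 : W.D i (W.Db j (K.Gi * H)) = K.Gi * K.R i j * K.Gi * H
      + (K.Ga j)ᴴ * K.Gi * K.Ga i * H - (K.Ga j)ᴴ * K.Gi * W.D i H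
      - K.Gi * K.Ga i * W.Db j H + K.Gi * W.D i (W.Db j H) := by
    rw [h1, W.D_add, W.D_neg, W.D_mul, W.D_mul, W.D_mul, K.D_Ga_star, K.D_Gi]
    noncomm_ring
  rw [W.db_trace, W.d_trace, h2]
  simp only [E, mul_add, mul_sub, trace_add, trace_sub]
  have c1 : (K.Gi * K.R i j * K.Gi * H).trace = (K.Gi * H * K.Gi * K.R i j).trace := by
    rw [mul_assoc (K.Gi * K.R i j), Matrix.trace_mul_comm, ← mul_assoc]
  have c2 : ((K.Ga j)ᴴ * K.Gi * K.Ga i * H).trace = (K.Gi * (K.Ga i * H * (K.Ga j)ᴴ)).trace := by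
    rw [mul_assoc, mul_assoc, Matrix.trace_mul_comm, mul_assoc]
  have c3 : ((K.Ga j)ᴴ * K.Gi * W.D i H).trace = (K.Gi * (W.D i H * (K.Ga j)ᴴ)).trace := by
    rw [mul_assoc, Matrix.trace_mul_comm, mul_assoc]
  rw [c1, c2, c3, mul_assoc K.Gi (K.Ga i)]
  ring

/-- `∂̄`-divergence of `det G · G⁻¹ Z` -/
lemma div_bar (Z : Matrix (Fin n) (Fin n) A) (i : Fin n) :
    ∑ j, W.db j (K.G.det * (K.Gi * Z) j i) = K.G.det * ∑ j, (K.Gi * W.Db j Z) j i := by
  have h0 : ∀ j, W.db j K.G.det = K.G.det * (K.Ga j)ᴴ.trace := by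
    intro j
    rw [W.db_det' K.mul_inv, K.Db_G_eq, ← mul_assoc, K.inv_mul, one_mul]
  have h1 : ∀ j, W.db j (K.G.det * (K.Gi * Z) j i) = K.G.det * ((K.Gi * W.Db j Z) j i
      + ((K.Ga j)ᴴ.trace * (K.Gi * Z) j i - ((K.Ga j)ᴴ * (K.Gi * Z)) j i)) := by
    intro j
    have h2 : W.db j ((K.Gi * Z) j i) = -((K.Ga j)ᴴ * (K.Gi * Z)) j i + (K.Gi * W.Db j Z) j i := by
      rw [← WAlg.Db_apply, W.Db_mul, K.Db_Gi, Matrix.add_apply, Matrix.neg_mul, mul_assoc,
        Matrix.neg_apply]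
    rw [W.db_mul, h0, h2]
    ring
  have h3 : ∑ j, ((K.Ga j)ᴴ.trace * (K.Gi * Z) j i - ((K.Ga j)ᴴ * (K.Gi * Z)) j i) = 0 := by
    rw [Finset.sum_sub_distrib, sub_eq_zero]
    simp only [trace, diag, Matrix.mul_apply (M := (K.Ga _)ᴴ), Finset.sum_mul,
      conjTranspose_apply]
    rw [Finset.sum_comm]
    refine Finset.sum_congr rfl fun j _ => Finset.sum_congr rfl fun k _ => ?_
    rw [K.Ga_symm k j j]
  simp only [h1, ← Finset.mul_sum, Finset.sum_add_distrib, h3, add_zero]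

/-- `∂`-divergence of `det G · y G⁻¹` -/
lemma div_hol (y : Fin n → A) :
    ∑ i, W.d i (K.G.det * ∑ k, y k * K.Gi k i) = K.G.det * ∑ i, ∑ k, W.d i (y k) * K.Gi k i := by
  have h0 : ∀ i, W.d i K.G.det = K.G.det * (K.Ga i).trace := by
    intro i
    rw [W.d_det' K.mul_inv, K.D_G_eq, Matrix.trace_mul_comm, mul_assoc, K.mul_inv, mul_one]
  have h1 : ∀ i, W.d i (K.G.det * ∑ k, y k * K.Gi k i) = K.G.det * (∑ k, W.d i (y k) * K.Gi k i
      + ((K.Ga i).trace * (∑ k, y k * K.Gi k i) - ∑ k, y k * (K.Gi * K.Ga i) k i)) := by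
    intro i
    have h2 : ∀ k, W.d i (y k * K.Gi k i) = W.d i (y k) * K.Gi k i
        - y k * (K.Gi * K.Ga i) k i := by
      intro k
      rw [W.d_mul, ← WAlg.D_apply, K.D_Gi, Matrix.neg_apply]
      ring
    rw [W.d_mul, h0, W.d_sum]
    simp only [h2, Finset.sum_sub_distrib]
    ring
  have h3 : ∑ i, ((K.Ga i).trace * (∑ k, y k * K.Gi k i) - ∑ k, y k * (K.Gi * K.Ga i) k i) = 0 := by
    rw [Finset.sum_sub_distrib, sub_eq_zero]
    simp only [Matrix.mul_apply, Finset.mul_sum]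
    rw [Finset.sum_comm (s := Finset.univ) (t := Finset.univ)
      (f := fun i k => (K.Ga i).trace * (y k * K.Gi k i)),
      Finset.sum_comm (s := Finset.univ) (t := Finset.univ)
      (f := fun i k => ∑ j, y k * (K.Gi k j * K.Ga i j i))]
    refine Finset.sum_congr rfl fun k _ => ?_
    rw [Finset.sum_comm]
    refine Finset.sum_congr rfl fun p _ => ?_
    simp only [trace, diag, Finset.sum_mul]
    refine Finset.sum_congr rfl fun i _ => ?_
    rw [K.Ga_symm i p i]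
    ring
  simp only [h1, ← Finset.mul_sum, Finset.sum_add_distrib, h3, add_zero]

/-- divergence twice of `det G · T G⁻¹` for a scalar `T` -/
lemma div_scalar (T : A) :
    ∑ i, ∑ j, W.d i (W.db j (K.G.det * (T * K.Gi j i))) =
      K.G.det * ∑ i, ∑ j, K.Gi j i * W.d i (W.db j T) := by
  have h1 : ∀ i, ∑ j, W.db j (K.G.det * (T * K.Gi j i)) =
      K.G.det * ∑ k, W.db k T * K.Gi k i := by
    intro i
    have h := K.div_bar (T • (1 : Matrix (Fin n) (Fin n) A)) i
    have e1 : ∀ j, (K.Gi * (T • (1 : Matrix (Fin n) (Fin n) A))) j i = T * K.Gi j i := by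
      intro j; rw [Matrix.mul_smul, mul_one, Matrix.smul_apply, smul_eq_mul]
    have e2 : ∀ j, W.Db j (T • (1 : Matrix (Fin n) (Fin n) A)) =
        W.db j T • (1 : Matrix (Fin n) (Fin n) A) := by
      intro j
      ext a b
      simp only [WAlg.Db_apply, Matrix.smul_apply, smul_eq_mul, Matrix.one_apply]
      split_ifs <;> simp
    simp only [e1, e2] at h
    rw [h]
    congr 1
    refine Finset.sum_congr rfl fun j _ => ?_
    rw [Matrix.mul_smul, mul_one, Matrix.smul_apply, smul_eq_mul]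
  simp only [← W.d_sum, h1]
  rw [K.div_hol]
  congr 1
  exact Finset.sum_congr rfl fun i _ => Finset.sum_congr rfl fun j _ => mul_comm _ _

/-- divergence twice of `det G · G⁻¹ H G⁻¹` -/
lemma div_tensor (H : Matrix (Fin n) (Fin n) A) :
    ∑ i, ∑ j, W.d i (W.db j (K.G.det * (K.Gi * H * K.Gi) j i)) =
      K.G.det * (∑ i, ∑ j, (K.Gi * K.E H i j * K.Gi) j i + (K.Gi * H * K.Gi * K.Ric).trace) := by
  set N : Fin n → Matrix (Fin n) (Fin n) A := fun j => W.Db j H - H * (K.Ga j)ᴴ with hN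
  set y : Fin n → A := fun k => ∑ j, (K.Gi * N j) j k with hy
  have h1 : ∀ i, ∑ j, W.db j (K.G.det * (K.Gi * H * K.Gi) j i) =
      K.G.det * ∑ k, y k * K.Gi k i := by
    intro i
    have h := K.div_bar (H * K.Gi) i
    simp only [← mul_assoc] at h
    rw [h]
    congr 1
    have e : ∀ j, K.Gi * W.Db j (H * K.Gi) = K.Gi * N j * K.Gi := by
      intro j
      rw [W.Db_mul, K.Db_Gi, hN]
      noncomm_ring
    simp only [e, hy, Finset.sum_mul]
    rw [Finset.sum_comm]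
    exact Finset.sum_congr rfl fun j _ => by rw [Matrix.mul_apply]
  have h2 : ∀ i j, W.D i (K.Gi * N j) = K.Gi * (K.E H i j + H * K.Gi * K.R i j) := by
    intro i j
    rw [W.D_mul, K.D_Gi, hN]
    simp only [W.D_sub, W.D_mul, K.D_Ga_star, E]
    noncomm_ring
  simp only [← W.d_sum, h1]
  rw [K.div_hol]
  congr 1
  have h3 : ∀ i, ∑ k, W.d i (y k) * K.Gi k i =
      ∑ j, ((K.Gi * K.E H i j * K.Gi) j i + (K.Gi * H * K.Gi * K.R i j * K.Gi) j i) := by
    intro i
    simp only [hy, W.d_sum, Finset.sum_mul]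
    rw [Finset.sum_comm]
    refine Finset.sum_congr rfl fun j _ => ?_
    rw [← Matrix.add_apply]
    have e : K.Gi * K.E H i j * K.Gi + K.Gi * H * K.Gi * K.R i j * K.Gi
        = W.D i (K.Gi * N j) * K.Gi := by
      rw [h2]; noncomm_ring
    rw [e, Matrix.mul_apply]
    rfl
  simp only [h3, Finset.sum_add_distrib]
  rw [K.sum_R']

/-- **Main pointwise identity.** -/
theorem main_identity (H : Matrix (Fin n) (Fin n) A) :
    ∑ i, ∑ j, W.d i (W.db j
      (K.G.det * ((K.Gi * H).trace * K.Gi j i + (K.Gi * H * K.Gi) j i))) =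
      K.G.det * (∑ i, ∑ j, K.Gi j i * (K.Gi * K.E H i j).trace
        + ∑ i, ∑ j, (K.Gi * K.E H i j * K.Gi) j i
        + 2 * (K.Gi * H * K.Gi * K.Ric).trace) := by
  have h : ∀ i j, W.d i (W.db j
      (K.G.det * ((K.Gi * H).trace * K.Gi j i + (K.Gi * H * K.Gi) j i))) =
      W.d i (W.db j (K.G.det * ((K.Gi * H).trace * K.Gi j i)))
        + W.d i (W.db j (K.G.det * (K.Gi * H * K.Gi) j i)) := by
    intro i j
    rw [mul_add, W.db_add, W.d_add]
  simp only [h, Finset.sum_add_distrib]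
  rw [K.div_scalar, K.div_tensor]
  simp only [K.d_db_trace, mul_add, Finset.sum_add_distrib]
  rw [K.sum_R]
  ring

end KMet

end Vale.Agent.P272.K.P1
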