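import Vale.Agent.P272.K.P1.Avg
import Vale.Agent.P272.K.P1.SmAlg
import Vale.Agent.P272.K.P1.Ident
import Vale.Agent.P272.K.C2.ChernLu
import Vale.Agent.P272.K.Inv.Consts

/-!
# The pointwise inequality

For a Kähler metric `g` and a Hermitian metric `h` with holomorphic sectional curvature `≤ -k`
on an open set, we bound `Re ∑ ∂_i ∂̄_j (det g (tr(g⁻¹h) g⁻¹ + g⁻¹hg⁻¹)_{ji})` from below.
-/

open scoped ContDiff Topology ComplexConjugate ComplexOrder
open TopologicalSpace (Opens)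
open Matrix

noncomputable section

namespace Vale.Agent.P272.K.P1

section alg

variable {n : ℕ} {A : Type*} [CommRing A] [StarRing A] {W : WAlg n A} (K : KMet W)

lemma KMet.E_eq {H Hi : Matrix (Fin n) (Fin n) A} (h1 : H * Hi = 1) (h2 : Hi * H = 1)
    (hH : Hᴴ = H) (i j : Fin n) :
    K.E H i j = (W.D i (W.Db j H) - W.D i H * Hi * W.Db j H)
      + (W.D i H - K.Ga i * H) * Hi * (W.D j H - K.Ga j * H)ᴴ := by
  have h3 : (W.D j H)ᴴ = W.Db j H := by rw [← W.Db_conjTranspose, hH]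
  rw [KMet.E, conjTranspose_sub, conjTranspose_mul, hH, h3]
  have e1 : (W.D i H - K.Ga i * H) * Hi * (W.Db j H - H * (K.Ga j)ᴴ) =
      W.D i H * Hi * W.Db j H - W.D i H * (Hi * H) * (K.Ga j)ᴴ
      - K.Ga i * (H * Hi) * W.Db j H + K.Ga i * (H * Hi) * H * (K.Ga j)ᴴ := by
    noncomm_ring
  rw [e1, h1, h2]
  noncomm_ring

end alg

section quartic

variable {n : ℕ}

lemma quart_eq_herm (E : Fin n → Fin n → Matrix (Fin n) (Fin n) ℂ) (v : Fin n → ℂ) :
    quart E v v v v = herm (∑ i, ∑ j, (v i * conj (v j)) • E i j) v := by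
  simp only [quart, herm, Matrix.sum_apply, Matrix.smul_apply, smul_eq_mul, Finset.sum_mul]
  have : ∀ i, ∑ j, ∑ k, ∑ l, E i j k l * (v i * conj (v j) * v k * conj (v l)) =
      ∑ k, ∑ l, ∑ j, v i * conj (v j) * E i j k l * (v k * conj (v l)) := by
    intro i
    rw [Finset.sum_comm]
    refine Finset.sum_congr rfl fun k _ => ?_
    rw [Finset.sum_comm]
    refine Finset.sum_congr rfl fun l _ => Finset.sum_congr rfl fun j _ => ?_
    ring
  simp only [this]
  rw [Finset.sum_comm]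
  refine Finset.sum_congr rfl fun k _ => ?_
  rw [Finset.sum_comm]

lemma quart_nonneg (N : Fin n → Matrix (Fin n) (Fin n) ℂ) {P : Matrix (Fin n) (Fin n) ℂ}
    (hP : P.PosSemidef) (v : Fin n → ℂ) :
    0 ≤ (quart (fun i j => N i * P * (N j)ᴴ) v v v v).re := by
  rw [quart_eq_herm]
  have h : (∑ i, ∑ j, (v i * conj (v j)) • (N i * P * (N j)ᴴ)) =
      (∑ i, v i • N i) * P * (∑ i, v i • N i)ᴴ := by
    simp only [Matrix.conjTranspose_sum, Matrix.conjTranspose_smul, Matrix.sum_mul,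
      Matrix.mul_sum, Matrix.smul_mul, Matrix.mul_smul, smul_smul, Finset.smul_sum]
    rw [Finset.sum_comm]
    refine Finset.sum_congr rfl fun i _ => Finset.sum_congr rfl fun j _ => ?_
    rw [mul_comm (v j)]; rfl
  rw [h]
  exact quad_nonneg (hP.mul_mul_conjTranspose_same _) v

lemma quart_add' (E F : Fin n → Fin n → Matrix (Fin n) (Fin n) ℂ) (v : Fin n → ℂ) :
    quart (fun i j => E i j + F i j) v v v v = quart E v v v v + quart F v v v v := by
  simp only [quart, Matrix.add_apply, add_mul, Finset.sum_add_distrib]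

lemma quart_neg' (E : Fin n → Fin n → Matrix (Fin n) (Fin n) ℂ) (v : Fin n → ℂ) :
    quart (fun i j => -E i j) v v v v = -quart E v v v v := by
  simp only [quart, Matrix.neg_apply, neg_mul, Finset.sum_neg_distrib]

end quartic

section point

variable {n : ℕ} {O : Opens (Cm n)}

/-- smooth Hermitian metric on an open set -/
structure Met (O : Opens (Cm n)) (g : Cm n → Matrix (Fin n) (Fin n) ℂ) : Prop where
  smooth : ∀ z ∈ O, ∀ i j, ContDiffAt ℝ ∞ (fun y => g y i j) z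
  pos : ∀ z ∈ O, (g z).PosDef

namespace Met

variable {g : Cm n → Matrix (Fin n) (Fin n) ℂ} (hg : Met O g)

include hg

lemma smooth_inv (i j : Fin n) (z : Cm n) (hz : z ∈ O) :
    ContDiffAt ℝ ∞ (fun y => (g y)⁻¹ i j) z :=
  contDiffAt_inv (hg.smooth z hz) (hg.pos z hz).det_pos.ne' i j

/-- as a matrix of smooth functions -/
def M : Matrix (Fin n) (Fin n) (Sm O) := Sm.mkM g fun i j z hz => hg.smooth z hz i j

/-- the inverse as a matrix of smooth functions -/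
def Mi : Matrix (Fin n) (Fin n) (Sm O) := Sm.mkM (fun z => (g z)⁻¹) hg.smooth_inv

lemma evM_M (x : O) : Sm.evM x hg.M = g x := Sm.evM_mkM x g _

lemma evM_Mi (x : O) : Sm.evM x hg.Mi = (g x)⁻¹ := Sm.evM_mkM x (fun z => (g z)⁻¹) _

lemma isUnit (x : O) : IsUnit (g x).det := (hg.pos x x.2).det_pos.ne'.isUnit

lemma M_mul_Mi : hg.M * hg.Mi = 1 := Sm.evM_ext fun x => by
  rw [Sm.evM_mul, hg.evM_M, hg.evM_Mi, Sm.evM_one, Matrix.mul_nonsing_inv _ (hg.isUnit x)]

lemma Mi_mul_M : hg.Mi * hg.M = 1 := Sm.evM_ext fun x => by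
  rw [Sm.evM_mul, hg.evM_M, hg.evM_Mi, Sm.evM_one, Matrix.nonsing_inv_mul _ (hg.isUnit x)]

lemma M_herm : (hg.M)ᴴ = hg.M := Sm.evM_ext fun x => by
  rw [Sm.evM_conjTranspose, hg.evM_M, (hg.pos x x.2).isHermitian.eq]

lemma M_apply (i j : Fin n) :
    hg.M i j = Sm.mk (fun z => g z i j) (fun z hz => hg.smooth z hz i j) := rfl

lemma evM_D (x : O) (i : Fin n) : Sm.evM x ((Sm.W O).D i hg.M) = C2.DM i g x := by
  ext a b
  rw [Sm.evM_apply, WAlg.D_apply, Sm.W_d, hg.M_apply, Sm.ev_d_mk, C2.DM_apply]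

lemma evM_Db (x : O) (i : Fin n) : Sm.evM x ((Sm.W O).Db i hg.M) = C2.DMb i g x := by
  ext a b
  rw [Sm.evM_apply, WAlg.Db_apply, Sm.W_db, hg.M_apply, Sm.ev_db_mk, C2.DMb_apply]

lemma evM_D_Db (x : O) (i j : Fin n) :
    Sm.evM x ((Sm.W O).D i ((Sm.W O).Db j hg.M)) = C2.D2 i j g x := by
  ext a b
  rw [Sm.evM_apply, WAlg.D_apply, WAlg.Db_apply, Sm.W_d, Sm.W_db, hg.M_apply, Sm.ev_d_db_mk]
  rfl

/-- the Kähler metric over `Sm O` -/
def kmet (hc : ∀ z ∈ O, ∀ i j l, dz l (fun y => g y i j) z = dz i (fun y => g y l j) z) :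
    KMet (Sm.W O) where
  G := hg.M
  Gi := hg.Mi
  mul_inv := hg.M_mul_Mi
  inv_mul := hg.Mi_mul_M
  herm := hg.M_herm
  closed i j k := Sm.ev_ext fun x => by
    rw [Sm.W_d, Sm.W_d, hg.M_apply, hg.M_apply, Sm.ev_d_mk, Sm.ev_d_mk]
    exact hc x x.2 i j k

omit hg in
lemma curv_eq (h : Cm n → Matrix (Fin n) (Fin n) ℂ) (z : Cm n) (i j k l : Fin n) :
    curv h z i j k l = (-C2.D2 i j h z + C2.DM i h z * (h z)⁻¹ * C2.DMb j h z) k l := by
  rw [curv, Matrix.add_apply, Matrix.neg_apply]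
  congr 1
  rw [Matrix.mul_apply, Finset.sum_comm]
  refine Finset.sum_congr rfl fun p _ => ?_
  rw [Matrix.mul_apply, Finset.sum_mul]
  rfl

end Met

variable {g h : Cm n → Matrix (Fin n) (Fin n) ℂ} (hg : Met O g) (hh : Met O h)
  (hc : ∀ z ∈ O, ∀ i j l, dz l (fun y => g y i j) z = dz i (fun y => g y l j) z)

/-- the lower bound for the quartic form `E` -/
lemma quart_E_ge (x : O) {k : ℝ}
    (hk : ∀ ξ : Cm n, (K.quart (curv h x) ξ).re ≤ -k * (quad (h x) ξ).re ^ 2) (v : Fin n → ℂ) :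
    k * (herm (h x) v).re ^ 2 ≤
      (quart (fun i j => Sm.evM x ((hg.kmet hc).E hh.M i j)) v v v v).re := by
  set N : Fin n → Matrix (Fin n) (Fin n) ℂ := fun i =>
    Sm.evM x ((Sm.W O).D i hh.M - (hg.kmet hc).Ga i * hh.M) with hN
  have e : ∀ i j, Sm.evM x ((hg.kmet hc).E hh.M i j) =
      -(-C2.D2 i j h x + C2.DM i h x * (h x)⁻¹ * C2.DMb j h x)
        + N i * (h x)⁻¹ * (N j)ᴴ := by
    intro i j
    rw [(hg.kmet hc).E_eq hh.M_mul_Mi hh.Mi_mul_M hh.M_herm i j, Sm.evM_add, Sm.evM_mul,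
      Sm.evM_mul, Sm.evM_conjTranspose, hh.evM_Mi, Sm.evM_sub, hh.evM_D_Db, Sm.evM_mul,
      Sm.evM_mul, hh.evM_D, hh.evM_Mi, hh.evM_Db]
    congr 1
    abel
  simp only [e]
  rw [quart_add', quart_neg', Complex.add_re, Complex.neg_re]
  have h1 := quart_nonneg N (hh.pos x x.2).inv.posSemidef v
  have h2 : (K.quart (curv h x) v).re ≤ -k * (quad (h x) v).re ^ 2 := hk v
  have h3 : quart (fun i j => -C2.D2 i j h x + C2.DM i h x * (h x)⁻¹ * C2.DMb j h x) v v v v =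
      K.quart (curv h x) v := by
    unfold quart K.quart
    simp only [Met.curv_eq]
  rw [h3]
  have h4 : herm (h x) v = quad (h x) v := rfl
  rw [h4]
  nlinarith [h1, h2]

end point

end Vale.Agent.P272.K.P1
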