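import Vale.Agent.P272.K.P1.WeakForm

/-!
# The weak identity with the square kept
-/

open scoped ContDiff Topology ComplexConjugate ComplexOrder
open TopologicalSpace (Opens)
open Matrix MeasureTheory

noncomputable section

namespace Vale.Agent.P272.K.P1

variable {n : ℕ}

/-- the Christoffel matrices `(Γ_i)_{k p} = Γ^p_{i k}` of the Chern connection -/
def Gam (g : Cm n → Matrix (Fin n) (Fin n) ℂ) (i : Fin n) (z : Cm n) :
    Matrix (Fin n) (Fin n) ℂ := C2.DM i g z * (g z)⁻¹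

/-- the tensor `E_{i j̄ k l̄}` -/
def Ef (g h : Cm n → Matrix (Fin n) (Fin n) ℂ) (z : Cm n) (i j : Fin n) :
    Matrix (Fin n) (Fin n) ℂ :=
  C2.D2 i j h z - Gam g i z * C2.DMb j h z - C2.DM i h z * (Gam g j z)ᴴ
    + Gam g i z * h z * (Gam g j z)ᴴ

/-- the contraction of `E` with `g^{i j̄} g^{k l̄} + g^{i l̄} g^{k j̄}` -/
def Q2 (g h : Cm n → Matrix (Fin n) (Fin n) ℂ) (z : Cm n) : ℝ :=
  (∑ i, ∑ j, (g z)⁻¹ j i * ((g z)⁻¹ * Ef g h z i j).trace
    + ∑ i, ∑ j, ((g z)⁻¹ * Ef g h z i j * (g z)⁻¹) j i).re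

/-- `(Γ_h - Γ_g)(w, w)` -/
def dGam (g h : Cm n → Matrix (Fin n) (Fin n) ℂ) (z w : Cm n) : Cm n :=
  fun m => ∑ i, ∑ k, w i * w k * (Gam h i z - Gam g i z) k m

variable {O : Opens (Cm n)} {g h : Cm n → Matrix (Fin n) (Fin n) ℂ}

section
variable (hg : Met O g) (hh : Met O h)
  (hc : ∀ z ∈ O, ∀ i j l, dz l (fun y => g y i j) z = dz i (fun y => g y l j) z)

lemma evM_Ga (x : O) (i : Fin n) : Sm.evM x ((hg.kmet hc).Ga i) = Gam g i x := by
  have e1 : Sm.evM x (hg.kmet hc).Gi = (g x)⁻¹ := hg.evM_Mi x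
  have e2 : Sm.evM x ((Sm.W O).D i (hg.kmet hc).G) = C2.DM i g x := hg.evM_D x i
  rw [KMet.Ga, Sm.evM_mul, e1, e2, Gam]

lemma evM_E (x : O) (i j : Fin n) :
    Sm.evM x ((hg.kmet hc).E hh.M i j) = Ef g h x i j := by
  rw [KMet.E, Sm.evM_add, Sm.evM_sub, Sm.evM_sub, Sm.evM_mul, Sm.evM_mul, Sm.evM_mul,
    Sm.evM_mul, Sm.evM_conjTranspose, hh.evM_D_Db, hh.evM_D, hh.evM_Db, hh.evM_M,
    evM_Ga hg hc, evM_Ga hg hc, Ef]

lemma DMb_eq_of_met (hh : Met O h) (x : O) (j : Fin n) :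
    C2.DMb j h x = (C2.DM j h x)ᴴ := by
  rw [← hh.evM_Db, ← hh.evM_D, ← Sm.evM_conjTranspose, ← WAlg.Db_conjTranspose, hh.M_herm]

/-- the quartic form of `E` is `|(Γ_h - Γ_g)(w,w)|²_h - R^h(w, w̄, w, w̄)` -/
theorem quart_Ef (hh : Met O h) {z : Cm n} (hz : z ∈ O) (w : Cm n) :
    quart (Ef g h z) w w w w = quad (h z) (dGam g h z w) - K.quart (curv h z) w := by
  have hu : IsUnit (h z).det := hh.isUnit ⟨z, hz⟩
  have hH : (h z)ᴴ = h z := (hh.pos z hz).isHermitian.eq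
  have hHi : ((h z)⁻¹)ᴴ = (h z)⁻¹ := (hh.pos z hz).inv.isHermitian.eq
  have hb : ∀ j, C2.DMb j h z = (C2.DM j h z)ᴴ := fun j => DMb_eq_of_met hh ⟨z, hz⟩ j
  have e : ∀ i j, Ef g h z i j =
      (Gam h i z - Gam g i z) * h z * (Gam h j z - Gam g j z)ᴴ
        + -(-C2.D2 i j h z + C2.DM i h z * (h z)⁻¹ * C2.DMb j h z) := by
    intro i j
    have a1 : ∀ i, Gam h i z * h z = C2.DM i h z := fun i => by
      rw [Gam, Matrix.mul_assoc, Matrix.nonsing_inv_mul _ hu, Matrix.mul_one]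
    have a2 : (Gam h j z)ᴴ = (h z)⁻¹ * C2.DMb j h z := by
      rw [Gam, conjTranspose_mul, hHi, hb]
    have a3 : h z * (Gam h j z)ᴴ = C2.DMb j h z := by
      rw [a2, ← Matrix.mul_assoc, Matrix.mul_nonsing_inv _ hu, Matrix.one_mul]
    rw [Ef, Matrix.sub_mul, conjTranspose_sub, Matrix.mul_sub, Matrix.sub_mul, Matrix.sub_mul, a1,
      Matrix.mul_assoc (Gam g i z) (h z) (Gam h j z)ᴴ, a3, a2, ← Matrix.mul_assoc]
    abel
  have e' : Ef g h z = fun i j =>
      (Gam h i z - Gam g i z) * h z * (Gam h j z - Gam g j z)ᴴ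
        + -(-C2.D2 i j h z + C2.DM i h z * (h z)⁻¹ * C2.DMb j h z) :=
    funext fun i => funext fun j => e i j
  rw [e']
  have h1 : quart (fun i j => (Gam h i z - Gam g i z) * h z * (Gam h j z - Gam g j z)ᴴ
      + -(-C2.D2 i j h z + C2.DM i h z * (h z)⁻¹ * C2.DMb j h z)) w w w w =
      quart (fun i j => (Gam h i z - Gam g i z) * h z * (Gam h j z - Gam g j z)ᴴ) w w w w
      - K.quart (curv h z) w := by
    rw [quart_add', quart_neg', sub_eq_add_neg]
    congr 2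
    simp only [quart, K.quart, Met.curv_eq]
  rw [h1]
  congr 1
  have h2 : (∑ i, ∑ j, (w i * conj (w j)) •
      ((Gam h i z - Gam g i z) * h z * (Gam h j z - Gam g j z)ᴴ)) =
      (∑ i, w i • (Gam h i z - Gam g i z)) * h z * (∑ i, w i • (Gam h i z - Gam g i z))ᴴ := by
    simp only [Matrix.conjTranspose_sum, Matrix.conjTranspose_smul, Matrix.sum_mul,
      Matrix.mul_sum, Matrix.smul_mul, Matrix.mul_smul, smul_smul, Finset.smul_sum]
    rw [Finset.sum_comm]
    refine Finset.sum_congr rfl fun i _ => Finset.sum_congr rfl fun j _ => ?_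
    rw [mul_comm (w j)]; rfl
  rw [quart_eq_herm, h2]
  set S := ∑ i, w i • (Gam h i z - Gam g i z) with hS
  have h3 : dGam g h z w = fun m => ∑ k, w k * S k m := by
    funext m
    rw [dGam, Finset.sum_comm]
    refine Finset.sum_congr rfl fun k _ => ?_
    rw [hS, Matrix.sum_apply, Finset.mul_sum]
    refine Finset.sum_congr rfl fun i _ => ?_
    rw [Matrix.smul_apply, smul_eq_mul]
    ring
  have h4 : quad (h z) (fun m => ∑ k, w k * S k m) = herm (h z) (fun m => ∑ k, w k * S k m) := rfl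
  rw [h3, h4, herm_expand, herm]
  refine Finset.sum_congr rfl fun a _ => Finset.sum_congr rfl fun b _ => ?_
  rw [mul_comm]
  congr 1
  rw [Matrix.mul_apply, Finset.sum_comm]
  refine Finset.sum_congr rfl fun p _ => ?_
  rw [Matrix.mul_apply, Finset.sum_mul]
  refine Finset.sum_congr rfl fun q _ => ?_
  rw [conjTranspose_apply]
  show S a q * h z q p * conj (S b p) = _
  ring

/-- the divergence identity at a point, real part -/
theorem re_sum_dz_Mf (hg : Met O g) (hh : Met O h)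
    (hc : ∀ z ∈ O, ∀ i j l, dz l (fun y => g y i j) z = dz i (fun y => g y l j) z)
    {z : Cm n} (hz : z ∈ O) :
    (∑ i, ∑ j, dz i (dzb j (Mf g h i j)) z).re = (Q2 g h z + 2 * ((g z)⁻¹ * h z * (g z)⁻¹ *
      -cHess (fun y => Real.log (g y).det.re) z).trace.re) * (g z).det.re := by
  have hgx : (g z).PosDef := hg.pos z hz
  have hdet : (g z).det = (((g z).det.re : ℝ) : ℂ) := (C2.det_re_eq hgx).symm
  have key := sum_dz_Mf hg hh hc ⟨z, hz⟩
  simp only [evM_E hg hh hc] at key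
  rw [key, hdet, Complex.re_ofReal_mul, Complex.ofReal_re, mul_comm, Complex.add_re, Q2]
  congr 2
  rw [show (2 : ℂ) = ((2 : ℝ) : ℂ) by norm_num, Complex.re_ofReal_mul]

end

/-- weak form of the identity, for test functions of any sign -/
theorem weak_eq {U : Set (Cm n)} (hUo : IsOpen U)
    (hgs : ∀ z ∈ U, ∀ i j, ContDiffAt ℝ ∞ (fun y => g y i j) z)
    (hhs : ∀ z ∈ U, ∀ i j, ContDiffAt ℝ ∞ (fun y => h y i j) z)
    (hgp : ∀ z ∈ U, (g z).PosDef) (hhp : ∀ z ∈ U, (h z).PosDef)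
    (hgc : ∀ z ∈ U, ∀ i j l, dz l (fun y => g y i j) z = dz i (fun y => g y l j) z)
    {ψ : Cm n → ℝ} (hψ : ContDiff ℝ ∞ ψ) (hψc : HasCompactSupport ψ) (hψU : tsupport ψ ⊆ U) :
    ∫ z in U, ψ z * ((Q2 g h z + 2 * ((g z)⁻¹ * h z * (g z)⁻¹ *
      -cHess (fun y => Real.log (g y).det.re) z).trace.re) * (g z).det.re) =
    ∫ z in U, (((g z)⁻¹ * h z).trace.re * ((g z)⁻¹ * cHess ψ z).trace.re +
      ((g z)⁻¹ * h z * ((g z)⁻¹ * cHess ψ z)).trace.re) * (g z).det.re := by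
  set O : Opens (Cm n) := ⟨U, hUo⟩ with hO
  have hg : Met O g := ⟨hgs, hgp⟩
  have hh : Met O h := ⟨hhs, hhp⟩
  set Ψ : Cm n → ℂ := fun z => (ψ z : ℂ) with hΨ
  have hΨs : ContDiff ℝ ∞ Ψ := Complex.ofRealCLM.contDiff.comp hψ
  have hΨc : HasCompactSupport Ψ := hψc.comp_left (g := fun r : ℝ => (r : ℂ)) Complex.ofReal_zero
  have hΨt : tsupport Ψ ⊆ tsupport ψ := by
    refine closure_mono fun z hz => ?_
    intro h0
    apply hz
    simp only [hΨ, h0, Complex.ofReal_zero]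
  have hΨU : tsupport Ψ ⊆ U := hΨt.trans hψU
  have hMf : ∀ i j, ∀ z ∈ U, ContDiffAt ℝ ∞ (Mf g h i j) z := fun i j z hz =>
    smooth_Mf hg hh i j z hz
  have hMf2 : ∀ i j, ∀ z ∈ U, ContDiffAt ℝ ∞ (dz i (dzb j (Mf g h i j))) z := fun i j z hz =>
    INT.smooth_dz (INT.smooth_dzb (hMf i j z hz))
  have int1 : ∀ i j, Integrable fun z => Ψ z * dz i (dzb j (Mf g h i j)) z := fun i j =>
    integrable_mul_cut hΨs hΨc hΨU (hMf2 i j)
  have int2 : ∀ i j, Integrable fun z => dz i (dzb j Ψ) z * Mf g h i j z := fun i j => by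
    have t1 : tsupport (dz i (dzb j Ψ)) ⊆ tsupport Ψ := (tsupport_dz i).trans (tsupport_dzb j)
    exact integrable_mul_cut (contDiff_dz (contDiff_dzb hΨs j) i)
      (hΨc.mono' (subset_closure.trans t1)) (t1.trans hΨU) (hMf i j)
  have e1 : ∫ z in U, ψ z * ((Q2 g h z + 2 * ((g z)⁻¹ * h z * (g z)⁻¹ *
      -cHess (fun y => Real.log (g y).det.re) z).trace.re) * (g z).det.re) =
      ∫ z, (∑ i, ∑ j, Ψ z * dz i (dzb j (Mf g h i j)) z).re := by
    have e3 : ∫ z in U, (∑ i, ∑ j, Ψ z * dz i (dzb j (Mf g h i j)) z).re =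
        ∫ z, (∑ i, ∑ j, Ψ z * dz i (dzb j (Mf g h i j)) z).re := by
      refine setIntegral_eq_integral_of_forall_compl_eq_zero fun z hz => ?_
      have h1 : Ψ z = 0 := image_eq_zero_of_notMem_tsupport fun h' => hz (hΨU h')
      simp [h1]
    rw [← e3]
    refine setIntegral_congr_fun hUo.measurableSet fun z hz => ?_
    show _ = (∑ i, ∑ j, Ψ z * dz i (dzb j (Mf g h i j)) z).re
    rw [← re_sum_dz_Mf hg hh hgc hz]
    simp only [← Finset.mul_sum]
    exact (Complex.re_ofReal_mul _ _).symm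
  have s2 : ∫ z, (∑ i, ∑ j, Ψ z * dz i (dzb j (Mf g h i j)) z).re =
      ∫ z, (∑ i, ∑ j, dz i (dzb j Ψ) z * Mf g h i j z).re := by
    have r1 : ∫ z, (∑ i, ∑ j, Ψ z * dz i (dzb j (Mf g h i j)) z).re =
        (∫ z, ∑ i, ∑ j, Ψ z * dz i (dzb j (Mf g h i j)) z).re :=
      integral_re (integrable_finsetSum _ fun i _ => integrable_finsetSum _ fun j _ => int1 i j)
    have r2 : ∫ z, (∑ i, ∑ j, dz i (dzb j Ψ) z * Mf g h i j z).re =
        (∫ z, ∑ i, ∑ j, dz i (dzb j Ψ) z * Mf g h i j z).re :=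
      integral_re (integrable_finsetSum _ fun i _ => integrable_finsetSum _ fun j _ => int2 i j)
    rw [r1, r2]
    congr 1
    rw [integral_finsetSum _ fun i _ => integrable_finsetSum _ fun j _ => int1 i j,
      integral_finsetSum _ fun i _ => integrable_finsetSum _ fun j _ => int2 i j]
    refine Finset.sum_congr rfl fun i _ => ?_
    rw [integral_finsetSum _ fun j _ => int1 i j, integral_finsetSum _ fun j _ => int2 i j]
    exact Finset.sum_congr rfl fun j _ => ibp2 hΨs hΨc hΨU (hMf i j) i j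
  have e2 : ∫ z in U, (((g z)⁻¹ * h z).trace.re * ((g z)⁻¹ * cHess ψ z).trace.re +
      ((g z)⁻¹ * h z * ((g z)⁻¹ * cHess ψ z)).trace.re) * (g z).det.re =
      ∫ z, (∑ i, ∑ j, dz i (dzb j Ψ) z * Mf g h i j z).re := by
    have e3 : ∫ z in U, (∑ i, ∑ j, dz i (dzb j Ψ) z * Mf g h i j z).re =
        ∫ z, (∑ i, ∑ j, dz i (dzb j Ψ) z * Mf g h i j z).re := by
      refine setIntegral_eq_integral_of_forall_compl_eq_zero fun z hz => ?_
      have h1 : z ∉ tsupport Ψ := fun h' => hz (hΨU h')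
      have h2 : ∀ i j, dz i (dzb j Ψ) z = 0 := fun i j =>
        image_eq_zero_of_notMem_tsupport fun h' => h1 (((tsupport_dz i).trans (tsupport_dzb j)) h')
      simp [h2]
    rw [← e3]
    · refine setIntegral_congr_fun hUo.measurableSet fun z hz => ?_
      show _ = (∑ i, ∑ j, dz i (dzb j Ψ) z * Mf g h i j z).re
      have hgx : (g z).PosDef := hgp z hz
      have hhx : (h z).PosDef := hhp z hz
      have t1 : (((g z)⁻¹ * h z).trace) = ((((g z)⁻¹ * h z).trace.re : ℝ) : ℂ) := by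
        have := C2.trace_mul_nonneg hgx.inv.posSemidef hhx.posSemidef
        rw [Complex.le_def] at this
        apply Complex.ext
        · simp
        · simpa using this.2.symm
      have t2 : ∑ i, ∑ j, dz i (dzb j Ψ) z * Mf g h i j z = ((g z).det.re : ℂ) *
          (((((g z)⁻¹ * h z).trace.re : ℝ) : ℂ) * ((g z)⁻¹ * cHess ψ z).trace +
            ((g z)⁻¹ * h z * ((g z)⁻¹ * cHess ψ z)).trace) := by
        rw [← t1, C2.det_re_eq hgx]
        have u1 : ((g z)⁻¹ * cHess ψ z).trace = ∑ i, ∑ j, dz i (dzb j Ψ) z * (g z)⁻¹ j i := by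
          rw [Matrix.trace_mul_comm]
          simp only [Matrix.trace, Matrix.diag_apply, Matrix.mul_apply]
          rfl
        have u2 : ((g z)⁻¹ * h z * ((g z)⁻¹ * cHess ψ z)).trace =
            ∑ i, ∑ j, dz i (dzb j Ψ) z * ((g z)⁻¹ * h z * (g z)⁻¹) j i := by
          rw [← Matrix.mul_assoc, Matrix.trace_mul_comm]
          simp only [Matrix.trace, Matrix.diag_apply]
          refine Finset.sum_congr rfl fun i _ => ?_
          rw [Matrix.mul_apply]
          rfl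
        rw [u1, u2, Finset.mul_sum, ← Finset.sum_add_distrib, Finset.mul_sum]
        refine Finset.sum_congr rfl fun i _ => ?_
        rw [Finset.mul_sum, ← Finset.sum_add_distrib, Finset.mul_sum]
        refine Finset.sum_congr rfl fun j _ => ?_
        rw [Mf]
        ring
      rw [t2, Complex.re_ofReal_mul, Complex.add_re, Complex.re_ofReal_mul]
      ring
  rw [e1, s2, ← e2]

/-- `<Ric, h>_g ≥ - tr_g h` when `Ric ≥ -g` -/
theorem ric_ge {z : Cm n} (hgx : (g z).PosDef) (hhx : (h z).PosDef)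
    (hRic : (-cHess (fun y => Real.log (g y).det.re) z + g z).PosSemidef) :
    -((g z)⁻¹ * h z).trace.re ≤ ((g z)⁻¹ * h z * (g z)⁻¹ *
      -cHess (fun y => Real.log (g y).det.re) z).trace.re := by
  have hP : ((g z)⁻¹ * h z * (g z)⁻¹).PosSemidef := by
    have := hhx.posSemidef.mul_mul_conjTranspose_same (g z)⁻¹
    rwa [hgx.inv.isHermitian.eq] at this
  have h2 := C2.trace_mul_nonneg hP hRic
  rw [Matrix.mul_add, Matrix.trace_add] at h2
  have h3 : ((g z)⁻¹ * h z * (g z)⁻¹ * g z).trace = ((g z)⁻¹ * h z).trace := by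
    rw [Matrix.mul_assoc, Matrix.nonsing_inv_mul _ hgx.det_pos.ne'.isUnit, Matrix.mul_one]
  rw [h3, Complex.le_def] at h2
  have h4 := h2.1
  rw [Complex.add_re, Complex.zero_re] at h4
  linarith

end Vale.Agent.P272.K.P1
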